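import Vale.Agent.Lib.P302.Hole

/-!
# Bin completion search with dominance

A second verified search.  The largest remaining item `x` is put into a bin, and the bin is
completed at once by at most two further items.  By an exchange argument only completions have to
be considered which cannot be improved by adding an item or by replacing an item by a larger one.
-/

namespace Vale.Agent.Lib.P302

open Multiset

/-! ## The exchange argument -/

/-- In a packing an item `r` may be replaced by items `T` of total size at most `r`. -/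
theorem IsPart.replace {P : Multiset (ℕ × Multiset ℕ)} {J caps : Multiset ℕ}
    (hP : IsPart P J caps) {r : ℕ} (hr : r ∈ J) (T : Multiset ℕ) (hT : T.sum ≤ r) :
    ∃ P', IsPart P' (T + J.erase r) caps := by
  obtain ⟨h1, h2, h3⟩ := hP
  have hx : r ∈ (P.map Prod.snd).sum := by rw [h2]; exact hr
  obtain ⟨b, hb, hrb⟩ := Multiset.mem_join.1 hx
  obtain ⟨q, hq, rfl⟩ := Multiset.mem_map.1 hb
  refine ⟨(q.1, T + q.2.erase r) ::ₘ P.erase q, ?_, ?_, ?_⟩
  · rw [Multiset.map_cons]
    show q.1 ::ₘ _ = _
    rw [← Multiset.map_cons Prod.fst, Multiset.cons_erase hq, h1]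
  · rw [Multiset.map_cons, Multiset.sum_cons]
    have h4 : q.2 + ((P.erase q).map Prod.snd).sum = J := by
      rw [← Multiset.sum_cons, ← Multiset.map_cons Prod.snd, Multiset.cons_erase hq, h2]
    show T + q.2.erase r + _ = _
    rw [← h4, Multiset.erase_add_left_pos _ hrb, add_assoc]
  · intro p hp
    rcases Multiset.mem_cons.1 hp with rfl | hp
    · have e1 : r + (q.2.erase r).sum = q.2.sum := Multiset.sum_erase hrb
      have e2 := h3 q hq
      show (T + q.2.erase r).sum ≤ q.1
      rw [Multiset.sum_add]
      omega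
    · exact h3 p (Multiset.mem_of_mem_erase hp)

/-- A packing can be normalised with respect to the bin of the item `x`. -/
theorem exists_normal (x : ℕ) (I caps : Multiset ℕ) (hpos : ∀ i ∈ I, 0 < i) :
    ∀ (w c : ℕ) (B J : Multiset ℕ) (P' : Multiset (ℕ × Multiset ℕ)), c ∈ caps → I = B + J →
      x + B.sum + w = c → IsPart P' J (caps.erase c) →
      ∃ (c : ℕ) (B J : Multiset ℕ) (P' : Multiset (ℕ × Multiset ℕ)), c ∈ caps ∧ I = B + J ∧
        x + B.sum ≤ c ∧ IsPart P' J (caps.erase c) ∧ (∀ r ∈ J, c - x - B.sum < r) ∧
        (∀ s ∈ B, ∀ r ∈ J, s < r → c - x - B.sum < r - s) := by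
  intro w
  induction w using Nat.strong_induction_on with
  | _ w ih =>
    intro c B J P' hc hI hw hP
    by_cases hN1 : ∀ r ∈ J, w < r
    · by_cases hN2 : ∀ s ∈ B, ∀ r ∈ J, s < r → w < r - s
      · have e : c - x - B.sum = w := by omega
        exact ⟨c, B, J, P', hc, hI, by omega, hP, by rw [e]; exact hN1, by rw [e]; exact hN2⟩
      · push Not at hN2
        obtain ⟨s, hs, r, hr, hsr, hle⟩ := hN2
        obtain ⟨P'', hP''⟩ := hP.replace hr {s} (by simp; omega)
        have e1 : s + (B.erase s).sum = B.sum := Multiset.sum_erase hs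
        refine ih (w - (r - s)) (by omega) c (r ::ₘ B.erase s) ({s} + J.erase r) P'' hc ?_ ?_ hP''
        · rw [hI]
          conv_lhs => rw [← Multiset.cons_erase hs, ← Multiset.cons_erase hr]
          simp only [Multiset.cons_add, Multiset.add_cons, Multiset.singleton_add]
          rw [Multiset.cons_swap]
        · rw [Multiset.sum_cons]
          omega
    · push Not at hN1
      obtain ⟨r, hr, hle⟩ := hN1
      obtain ⟨P'', hP''⟩ := hP.replace hr 0 (by simp)
      have hr0 : 0 < r := hpos r (by rw [hI]; exact Multiset.mem_add.2 (Or.inr hr))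
      refine ih (w - r) (by omega) c (r ::ₘ B) (0 + J.erase r) P'' hc ?_ ?_ hP''
      · rw [hI]
        conv_lhs => rw [← Multiset.cons_erase hr]
        simp only [Multiset.cons_add, Multiset.add_cons, zero_add]
      · rw [Multiset.sum_cons]
        omega

theorem exists_normal_of_part (x : ℕ) (I caps : Multiset ℕ) (hpos : ∀ i ∈ I, 0 < i)
    (P : Multiset (ℕ × Multiset ℕ)) (hP : IsPart P (x ::ₘ I) caps) :
    ∃ (c : ℕ) (B J : Multiset ℕ) (P' : Multiset (ℕ × Multiset ℕ)), c ∈ caps ∧ I = B + J ∧
      x + B.sum ≤ c ∧ IsPart P' J (caps.erase c) ∧ (∀ r ∈ J, c - x - B.sum < r) ∧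
      (∀ s ∈ B, ∀ r ∈ J, s < r → c - x - B.sum < r - s) := by
  obtain ⟨h1, h2, h3⟩ := hP
  have hx : x ∈ (P.map Prod.snd).sum := by rw [h2]; exact Multiset.mem_cons_self _ _
  obtain ⟨b, hb, hxb⟩ := Multiset.mem_join.1 hx
  obtain ⟨q, hq, rfl⟩ := Multiset.mem_map.1 hb
  have e1 : x + (q.2.erase x).sum = q.2.sum := Multiset.sum_erase hxb
  have e2 := h3 q hq
  have h4 : q.2 + ((P.erase q).map Prod.snd).sum = x ::ₘ I := by
    rw [← Multiset.sum_cons, ← Multiset.map_cons Prod.snd, Multiset.cons_erase hq, h2]
  refine exists_normal x I caps hpos (q.1 - q.2.sum) q.1 (q.2.erase x)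
    ((P.erase q).map Prod.snd).sum (P.erase q) ?_ ?_ (by omega) ⟨?_, rfl, ?_⟩
  · rw [← h1]
    exact Multiset.mem_map_of_mem _ hq
  · have h5 : x ::ₘ (q.2.erase x + ((P.erase q).map Prod.snd).sum) = x ::ₘ I := by
      rw [← Multiset.cons_add, Multiset.cons_erase hxb, h4]
    exact ((Multiset.cons_inj_right x).1 h5).symm
  · rw [Multiset.map_erase_of_mem _ _ hq, h1]
  · intro p hp
    exact h3 p (Multiset.mem_of_mem_erase hp)

theorem IsPart.sum_le {P : Multiset (ℕ × Multiset ℕ)} {J caps : Multiset ℕ}
    (hP : IsPart P J caps) : J.sum ≤ caps.sum := by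
  have h := fitsM_of_part J.toList P caps (by rw [Multiset.coe_toList]; exact hP)
  have h2 := FitsM.sum_le _ _ h
  rwa [← Multiset.sum_coe, Multiset.coe_toList] at h2

/-! ## The search -/

/-- The first element of the list which is at most `cap`. -/
def firstFit (cap : ℕ) : List ℕ → Option ℕ
  | [] => none
  | v :: l => if Nat.ble v cap = true then some v else firstFit cap l

theorem firstFit_none (cap : ℕ) : ∀ l : List ℕ, (∀ r ∈ l, cap < r) → firstFit cap l = none
  | [], _ => rfl
  | v :: l, h => by
    unfold firstFit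
    have h1 : ¬ (Nat.ble v cap = true) := by
      rw [Nat.ble_eq]
      have := h v List.mem_cons_self
      omega
    rw [if_neg h1]
    exact firstFit_none cap l fun r hr => h r (List.mem_cons_of_mem _ hr)

theorem firstFit_some (cap : ℕ) : ∀ l : List ℕ, l.Pairwise (· ≥ ·) → (∃ r ∈ l, r ≤ cap) →
    ∃ v, firstFit cap l = some v ∧ v ∈ l ∧ v ≤ cap ∧ ∀ r ∈ l, r ≤ cap → r ≤ v
  | [], _, h => by
    obtain ⟨r, hr, -⟩ := h
    simp at hr
  | v :: l, hl, h => by
    unfold firstFit
    obtain ⟨hl1, hl2⟩ := List.pairwise_cons.1 hl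
    by_cases h1 : Nat.ble v cap = true
    · rw [if_pos h1]
      refine ⟨v, rfl, List.mem_cons_self, Nat.le_of_ble_eq_true h1, ?_⟩
      intro r hr _
      rcases List.mem_cons.1 hr with rfl | hr
      · exact le_refl _
      · exact hl1 r hr
    · rw [if_neg h1]
      rw [Nat.ble_eq] at h1
      obtain ⟨r, hr, hrc⟩ := h
      have hr' : r ∈ l := by
        rcases List.mem_cons.1 hr with rfl | hr
        · exact absurd hrc h1
        · exact hr
      obtain ⟨u, e1, e2, e3, e4⟩ := firstFit_some cap l hl2 ⟨r, hr', hrc⟩
      refine ⟨u, e1, List.mem_cons_of_mem _ e2, e3, ?_⟩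
      intro s hs hsc
      rcases List.mem_cons.1 hs with rfl | hs
      · exact absurd hsc h1
      · exact e4 s hs hsc

/-- `f c` holds for some element `c` of the list; an element equal to its predecessor is
skipped. -/
def anyDistinct (f : ℕ → Bool) : ℕ → List ℕ → Bool
  | _, [] => false
  | prev, c :: l => (!(Nat.beq prev c) && f c) || anyDistinct f c l

theorem anyDistinct_true (f : ℕ → Bool) (c : ℕ) (hf : f c = true) : ∀ (l : List ℕ) (prev : ℕ),
    c ∈ l → prev ≠ c → anyDistinct f prev l = true
  | [], _, h, _ => by simp at h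
  | d :: l, prev, h, hp => by
    unfold anyDistinct
    by_cases hd : d = c
    · subst hd
      have : Nat.beq prev d = false := by
        rw [← Bool.not_eq_true, Nat.beq_eq]
        exact hp
      rw [this, hf]
      rfl
    · have hc : c ∈ l := by
        rcases List.mem_cons.1 h with h' | h'
        · exact absurd h'.symm hd
        · exact h'
      rw [anyDistinct_true f c hf l d hc hd]
      simp

/-- Complete the bin by `y` and, if possible, by the largest further item that fits. -/
def tryY (k : List ℕ → ℕ → Bool) (rest : List ℕ) (slack cap y0 y : ℕ) : Bool :=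
  Nat.ble y cap && Nat.ble cap (2 * y + slack) &&
    (match firstFit (cap - y) (rest.erase y) with
     | none => Nat.beq y y0 && Nat.ble (cap - y) slack && k (rest.erase y) (slack - (cap - y))
     | some v => Nat.ble v y && Nat.ble (cap - y - v) slack &&
         k ((rest.erase y).erase v) (slack - (cap - y - v)))

/-- All undominated completions of a bin with free capacity `cap`. -/
def completions (k : List ℕ → ℕ → Bool) (rest : List ℕ) (slack cap : ℕ) : Bool :=
  match firstFit cap rest with
  | none => Nat.ble cap slack && k rest (slack - cap)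
  | some y0 => anyDistinct (tryY k rest slack cap y0) 0 rest

/-- Bin completion search; the first argument bounds the number of bins that are filled (if it
is exhausted the answer is `true`). -/
def searchB : ℕ → List ℕ → List ℕ → ℕ → Bool
  | 0, _, _, _ => true
  | _ + 1, [], _, _ => true
  | f + 1, x :: rest, caps, slack =>
    anyDistinct (fun c => Nat.ble x c &&
      completions (fun r s => searchB f r (caps.erase c) s) rest slack (c - x)) 0 caps

theorem completions_true (k : List ℕ → ℕ → Bool) (rest : List ℕ) (hs : rest.Pairwise (· ≥ ·))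
    (hpos : ∀ y ∈ rest, 0 < y) (slack cap : ℕ) (B J : Multiset ℕ)
    (hBJ : (rest : Multiset ℕ) = B + J) (hB : B.sum ≤ cap) (hcard : card B ≤ 2)
    (N1 : ∀ r ∈ J, cap - B.sum < r) (N2 : ∀ s ∈ B, ∀ r ∈ J, s < r → cap - B.sum < r - s)
    (hw : cap - B.sum ≤ slack)
    (hk : ∀ r : List ℕ, (r : Multiset ℕ) = J → r.Sublist rest → k r (slack - (cap - B.sum)) = true) :
    completions k rest slack cap = true := by
  unfold completions
  have hc : card B = 0 ∨ card B = 1 ∨ card B = 2 := by omega
  rcases hc with hc | hc | hc
  · rw [Multiset.card_eq_zero] at hc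
    subst hc
    simp only [zero_add, Multiset.sum_zero, Nat.sub_zero] at hBJ N1 hw hk
    rw [firstFit_none cap rest (fun r hr => N1 r (by rw [← hBJ]; exact hr))]
    show (Nat.ble cap slack && k rest (slack - cap)) = true
    rw [hk rest hBJ (List.Sublist.refl _), Nat.ble_eq_true_of_le hw]
    rfl
  · obtain ⟨y, rfl⟩ := Multiset.card_eq_one.1 hc
    simp only [Multiset.sum_singleton, Multiset.mem_singleton, forall_eq] at hB N1 N2 hw hk
    have hy : y ∈ rest := by
      have : y ∈ (rest : Multiset ℕ) := by rw [hBJ]; simp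
      exact this
    have hJ : ((rest.erase y : List ℕ) : Multiset ℕ) = J := by
      rw [← Multiset.coe_erase, hBJ, Multiset.singleton_add, Multiset.erase_cons_head]
    obtain ⟨y0, e1, e2, e3, e4⟩ := firstFit_some cap rest hs ⟨y, hy, hB⟩
    have hy0 : y0 = y := by
      apply le_antisymm _ (e4 y hy hB)
      by_contra hcon
      have hmem : y0 ∈ J := by
        have : y0 ∈ (rest : Multiset ℕ) := e2
        rw [hBJ, Multiset.singleton_add, Multiset.mem_cons] at this
        rcases this with h | h
        · omega
        · exact h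
      have := N2 y0 hmem (by omega)
      omega
    rw [e1]
    show anyDistinct (tryY k rest slack cap y0) 0 rest = true
    apply anyDistinct_true _ y _ rest 0 hy (by have := hpos y hy; omega)
    unfold tryY
    rw [firstFit_none (cap - y) (rest.erase y) (fun r hr => N1 r (by rw [← hJ]; exact hr))]
    show (Nat.ble y cap && Nat.ble cap (2 * y + slack) &&
      (Nat.beq y y0 && Nat.ble (cap - y) slack && k (rest.erase y) (slack - (cap - y)))) = true
    rw [hk _ hJ List.erase_sublist, Nat.ble_eq_true_of_le hB, Nat.ble_eq_true_of_le hw,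
      Nat.ble_eq_true_of_le (show cap ≤ 2 * y + slack by omega), hy0, Nat.beq_refl]
    rfl
  · obtain ⟨a, b, hab⟩ := Multiset.card_eq_two.1 hc
    obtain ⟨y, z, hzy, rfl⟩ : ∃ y z, z ≤ y ∧ B = {y, z} := by
      rcases le_total a b with h | h
      · exact ⟨b, a, h, by rw [hab, Multiset.pair_comm]⟩
      · exact ⟨a, b, h, hab⟩
    have hsum : ({y, z} : Multiset ℕ).sum = y + z := by
      simp [Multiset.insert_eq_cons]
    rw [hsum] at hB N1 N2 hw hk
    have hBJ' : (rest : Multiset ℕ) = y ::ₘ z ::ₘ J := by
      rw [hBJ, Multiset.insert_eq_cons, Multiset.cons_add, Multiset.singleton_add]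
    have hy : y ∈ rest := by
      have : y ∈ (rest : Multiset ℕ) := by rw [hBJ']; simp
      exact this
    have hJ1 : ((rest.erase y : List ℕ) : Multiset ℕ) = z ::ₘ J := by
      rw [← Multiset.coe_erase, hBJ', Multiset.erase_cons_head]
    have hz : z ∈ rest.erase y := by
      have : z ∈ ((rest.erase y : List ℕ) : Multiset ℕ) := by rw [hJ1]; simp
      exact this
    have hJ2 : (((rest.erase y).erase z : List ℕ) : Multiset ℕ) = J := by
      rw [← Multiset.coe_erase, hJ1, Multiset.erase_cons_head]
    obtain ⟨y0, e1, -, -, -⟩ := firstFit_some cap rest hs ⟨y, hy, by omega⟩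
    obtain ⟨v, f1, f2, f3, f4⟩ := firstFit_some (cap - y) (rest.erase y)
      (hs.sublist List.erase_sublist) ⟨z, hz, by omega⟩
    have hv : v = z := by
      apply le_antisymm _ (f4 z hz (by omega))
      by_contra hcon
      have hmem : v ∈ J := by
        have : v ∈ ((rest.erase y : List ℕ) : Multiset ℕ) := f2
        rw [hJ1, Multiset.mem_cons] at this
        rcases this with h | h
        · omega
        · exact h
      have := N2 z (by simp) v hmem (by omega)
      omega
    rw [e1]
    show anyDistinct (tryY k rest slack cap y0) 0 rest = true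
    apply anyDistinct_true _ y _ rest 0 hy (by have := hpos y hy; omega)
    unfold tryY
    rw [f1, hv]
    show (Nat.ble y cap && Nat.ble cap (2 * y + slack) &&
      (Nat.ble z y && Nat.ble (cap - y - z) slack &&
        k ((rest.erase y).erase z) (slack - (cap - y - z)))) = true
    have e5 : cap - (y + z) = cap - y - z := by omega
    rw [e5] at hk hw
    rw [hk _ hJ2 (List.erase_sublist.trans List.erase_sublist), Nat.ble_eq_true_of_le hzy,
      Nat.ble_eq_true_of_le hw, Nat.ble_eq_true_of_le (show y ≤ cap by omega),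
      Nat.ble_eq_true_of_le (show cap ≤ 2 * y + slack by omega)]
    rfl

theorem searchB_complete (m : ℕ) (hm : 0 < m) : ∀ (f : ℕ) (items caps : List ℕ) (slack : ℕ),
    items.Pairwise (· ≥ ·) → (∀ i ∈ items, m ≤ i) → (∀ c ∈ caps, c < 4 * m) →
    (∃ P, IsPart P (items : Multiset ℕ) (caps : Multiset ℕ)) → caps.sum ≤ items.sum + slack →
    searchB f items caps slack = true
  | 0, _, _, _, _, _, _, _, _ => rfl
  | _ + 1, [], _, _, _, _, _, _, _ => rfl
  | f + 1, x :: rest, caps, slack, hs, hmi, hcm, ⟨P, hP⟩, hsl => by
    obtain ⟨hs1, hs2⟩ := List.pairwise_cons.1 hs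
    have hmr : ∀ i ∈ rest, m ≤ i := fun i hi => hmi i (List.mem_cons_of_mem _ hi)
    have hmx : m ≤ x := hmi x List.mem_cons_self
    obtain ⟨c, B, J, P', hc, hBJ, hxB, hP', N1, N2⟩ := exists_normal_of_part x (rest : Multiset ℕ)
      (caps : Multiset ℕ) (fun i hi => lt_of_lt_of_le hm (hmr i hi)) P
      (by rw [Multiset.cons_coe]; exact hP)
    have hc' : c ∈ caps := hc
    have hsumc : caps.sum = c + (caps.erase c).sum := by
      have := (List.perm_cons_erase hc').sum_eq
      simpa using this
    have hJle := hP'.sum_le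
    rw [Multiset.coe_erase, Multiset.sum_coe] at hJle
    have hrs : rest.sum = B.sum + J.sum := by
      rw [← Multiset.sum_coe, hBJ, Multiset.sum_add]
    have hBm : card B * m ≤ B.sum := by
      have := Multiset.card_nsmul_le_sum (s := B) (a := m)
        (fun y hy => hmr y (by
          have : y ∈ (rest : Multiset ℕ) := by rw [hBJ]; exact Multiset.mem_add.2 (Or.inl hy)
          exact this))
      simpa using this
    have hcard : card B ≤ 2 := by
      by_contra hcon
      have h3 : 3 * m ≤ card B * m := Nat.mul_le_mul_right m (by omega)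
      have := hcm c hc'
      omega
    simp only [List.sum_cons] at hsl
    unfold searchB
    apply anyDistinct_true _ c _ caps 0 hc' (by omega)
    rw [Nat.ble_eq_true_of_le (show x ≤ c by omega), Bool.true_and]
    have e0 : c - x - B.sum = (c - x) - B.sum := rfl
    apply completions_true _ rest hs2 (fun y hy => lt_of_lt_of_le hm (hmr y hy)) slack (c - x) B J
      hBJ (by omega) hcard N1 N2 (by omega)
    intro r hr hsub
    apply searchB_complete m hm f r (caps.erase c) _ (hs2.sublist hsub)
      (fun i hi => hmr i (hsub.subset hi))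
      (fun d hd => hcm d (List.mem_of_mem_erase hd))
    · refine ⟨P', ?_⟩
      rw [hr, ← Multiset.coe_erase]
      exact hP'
    · have : r.sum = J.sum := by rw [← Multiset.sum_coe, hr]
      omega

end Vale.Agent.Lib.P302
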