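import Vale.Agent.Lib.P302.GadgetCheck
import Vale.Agent.Lib.P302.BinSearch

/-!
# Gap instance checkers based on the bin completion search
-/

namespace Vale.Agent.Lib.P302

theorem not_fits_of_searchB (m f : ℕ) (hm : 0 < m) (items caps : List ℕ)
    (hs : items.Pairwise (· ≥ ·)) (hmi : ∀ i ∈ items, m ≤ i) (hc : ∀ c ∈ caps, c < 4 * m)
    (h : searchB f items caps (caps.sum - items.sum) = false) :
    ¬ FitsM items (caps : Multiset ℕ) := by
  intro hf
  have := searchB_complete m hm f items caps (caps.sum - items.sum) hs hmi hc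
    (FitsM.exists_part _ _ hf) (by omega)
  rw [h] at this
  exact Bool.false_ne_true this

/-! ## Sensitive instance + pairs gadget -/

/-- All Boolean checks for a gap instance built with the hole lemma; the items `A` are listed in
descending order and are larger than a quarter of the bin. -/
def checkHoleB (L D K β m f : ℕ) (hs ps A : List ℕ) (cert : List (List ℕ × ℕ)) : Bool :=
  Nat.blt 0 D && Nat.blt 0 L && (hs ++ (ps ++ A)).all (fun y => Nat.blt 0 y && Nat.ble y L) &&
    checkCert L D (hs ++ (ps ++ A)) cert &&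
    (Nat.blt 0 m && hs.all (fun h => Nat.blt L (2 * h)) && A.all (fun a => Nat.ble m a) &&
    hs.all (fun h => Nat.blt L (m + h)) && ps.all (fun q => Nat.ble β q) &&
    !(search β ps (hs.map (L - ·)) ((hs.map (L - ·)).sum - ps.sum))) &&
    (decide (A.Pairwise (· ≥ ·)) && Nat.blt L (4 * m) &&
    !(searchB f A ((L - β) :: List.replicate K L) (((L - β) :: List.replicate K L).sum - A.sum)))

theorem gap_of_holeB (L D K β m f : ℕ) (hs ps A : List ℕ) (cert : List (List ℕ × ℕ))
    (h : checkHoleB L D K β m f hs ps A cert = true) :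
    (∀ x ∈ inst L (hs ++ (ps ++ A)), 0 < x ∧ x ≤ 1) ∧
      ((K + 1 + hs.length : ℕ) : ℝ) + 1 - ((cert.map fun pw => pw.2).sum : ℕ) / (D : ℝ)
        ≤ (OPT (inst L (hs ++ (ps ++ A))) : ℝ) - LP (inst L (hs ++ (ps ++ A))) := by
  unfold checkHoleB at h
  simp only [Bool.and_eq_true, Nat.blt_eq, List.all_eq_true, Nat.ble_eq, Bool.not_eq_true',
    decide_eq_true_eq] at h
  obtain ⟨⟨⟨⟨⟨hD, hL⟩, hl⟩, hcert⟩, ⟨⟨⟨⟨⟨hm0, hh⟩, hmA⟩, hmh⟩, hβ⟩, hs1⟩⟩,
    ⟨⟨hAs, hL4⟩, hs2⟩⟩ := h
  have hv := inst_valid L _ hl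
  refine ⟨hv, ?_⟩
  have hnp : ¬ Packable (inst L (hs ++ (ps ++ A))) (K + 1 + hs.length) := by
    intro hp
    have hLq : (0 : ℚ) < L := by exact_mod_cast hL
    have h1 : PackQ ((hs ++ (ps ++ A)).map (fun x : ℕ => (x : ℚ) / L))
        (fun _ : Fin (K + 1 + hs.length) => ((L : ℕ) : ℚ) / L) := by
      obtain ⟨f, hf⟩ := hp
      refine ⟨f, fun j => ?_⟩
      rw [div_self hLq.ne']
      exact hf j
    have h2 := fits_of_packQ L hL _ (fun _ : Fin (K + 1 + hs.length) => L) h1
    have h3 : (Finset.univ.val.map (fun _ : Fin (K + 1 + hs.length) => L))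
        = Multiset.replicate (K + 1 + hs.length) L := by
      rw [Multiset.map_const']
      simp
    rw [h3] at h2
    refine not_fits_hole L (K + 1) β hs ps A (pairwise_of_all L hs hh) ?_ ?_ hβ ?_ ?_ h2
    · intro a ha x hx
      have := hmA a ha
      have := hmh x hx
      omega
    · intro a ha
      have := hmA a ha
      omega
    · intro hf
      have := search_complete β ps (hs.map (L - ·)) ((hs.map (L - ·)).sum - ps.sum) hβ hf
        (by omega)
      rw [hs1] at this
      exact Bool.false_ne_true this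
    · rintro ⟨c, hc, -, hf⟩
      have hcL : c = L := Multiset.eq_of_mem_replicate hc
      subst hcL
      rw [Multiset.replicate_succ, Multiset.erase_cons_head] at hf
      have hf' : FitsM A (((c - β) :: List.replicate K c : List ℕ) : Multiset ℕ) := by
        rw [← Multiset.cons_coe, Multiset.coe_replicate]
        exact hf
      refine not_fits_of_searchB m f hm0 A _ hAs hmA ?_ hs2 hf'
      intro d hd
      rcases List.mem_cons.1 hd with rfl | hd
      · omega
      · rw [List.eq_of_mem_replicate hd]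
        exact hL4
  have h2 := succ_le_OPT _ (fun x hx => (hv x hx).2) _ hnp
  have h3 := LP_le_of_cert L D hL hD _ cert hcert
  have h2' : ((K + 1 + hs.length : ℕ) : ℝ) + 1 ≤ (OPT (inst L (hs ++ (ps ++ A))) : ℝ) := by
    exact_mod_cast h2
  linarith

/-! ## Frame + thirds gadget + pairs gadget -/

theorem cfgCaps_le (L g b2 b1 b0 : ℕ) : ∀ c ∈ cfgCaps L g b2 b1 b0, c ≤ L := by
  intro c hc
  unfold cfgCaps at hc
  rcases List.mem_append.1 hc with h | h
  · rw [List.eq_of_mem_replicate h]
    omega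
  · rcases List.mem_append.1 h with h | h
    · rw [List.eq_of_mem_replicate h]
      omega
    · rw [List.eq_of_mem_replicate h]

theorem not_fits_cfgB (L g β m f b2 b1 b0 : ℕ) (R : List ℕ) (hm0 : 0 < m)
    (hRs : R.Pairwise (· ≥ ·)) (hm : ∀ y ∈ R, m ≤ y) (hL4 : L < 4 * m)
    (h : ∀ p ∈ cfgStates L g β R.sum b2 b1 b0, searchB f R p.1 p.2 = false) :
    ¬ FitsM (β :: R) (Multiset.replicate b2 (L - 2 * g) + Multiset.replicate b1 (L - g)
        + Multiset.replicate b0 L) := by
  have hc : (Multiset.replicate b2 (L - 2 * g) + Multiset.replicate b1 (L - g)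
      + Multiset.replicate b0 L) = ((cfgCaps L g b2 b1 b0 : List ℕ) : Multiset ℕ) := by
    unfold cfgCaps
    rw [← Multiset.coe_add, ← Multiset.coe_add, Multiset.coe_replicate, Multiset.coe_replicate,
      Multiset.coe_replicate, add_assoc]
  rw [hc]
  rintro ⟨c, hcm, hβ, hf⟩
  have hcm' : c ∈ cfgCaps L g b2 b1 b0 := Multiset.mem_coe.1 hcm
  rw [Multiset.coe_erase, Multiset.cons_coe] at hf
  have hmem : ((c - β) :: (cfgCaps L g b2 b1 b0).erase c,
      ((c - β) :: (cfgCaps L g b2 b1 b0).erase c).sum - R.sum) ∈ cfgStates L g β R.sum b2 b1 b0 := by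
    unfold cfgStates
    refine List.mem_map.2 ⟨c, List.mem_filter.2 ⟨List.mem_dedup.2 hcm', ?_⟩, rfl⟩
    rw [Nat.ble_eq]
    exact hβ
  refine not_fits_of_searchB m f hm0 R _ hRs hm ?_ (h _ hmem) hf
  intro d hd
  rcases List.mem_cons.1 hd with rfl | hd
  · have := cfgCaps_le L g b2 b1 b0 c hcm'
    omega
  · have := cfgCaps_le L g b2 b1 b0 d (List.mem_of_mem_erase hd)
    omega

/-- All Boolean checks for a gap instance consisting of huge items `hs`, pieces `ps`, a thirds
gadget `G` (ascending) and a frame `R` (descending). -/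
def checkGadgetB (L D K β m g τ f : ℕ) (hs ps G R : List ℕ) (cert : List (List ℕ × ℕ)) : Bool :=
  checkGadgetSmall L D β m g hs ps G R cert && decide (R.Pairwise (· ≥ ·)) && Nat.blt L (4 * m) &&
    !(searchB f (G.take (3 * (τ + 1))).reverse (List.replicate (τ + 1) L)
      ((List.replicate (τ + 1) L).sum - (G.take (3 * (τ + 1))).reverse.sum)) &&
    (gadgetStates L (K + 1) g τ G.length β R.sum).all (fun p => !searchB f R p.1 p.2)

theorem gap_of_gadgetB (L D K β m g τ f : ℕ) (hs ps G R : List ℕ) (cert : List (List ℕ × ℕ))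
    (h : checkGadgetB L D K β m g τ f hs ps G R cert = true) :
    (∀ x ∈ inst L (hs ++ (ps ++ (G ++ R))), 0 < x ∧ x ≤ 1) ∧
      ((K + 1 + hs.length : ℕ) : ℝ) + 1 - ((cert.map fun pw => pw.2).sum : ℕ) / (D : ℝ)
        ≤ (OPT (inst L (hs ++ (ps ++ (G ++ R)))) : ℝ) - LP (inst L (hs ++ (ps ++ (G ++ R)))) := by
  unfold checkGadgetB at h
  simp only [Bool.and_eq_true, Nat.blt_eq, List.all_eq_true, Bool.not_eq_true',
    decide_eq_true_eq] at h
  obtain ⟨⟨⟨⟨hsmall, hRs⟩, hL4⟩, H1⟩, H2⟩ := h
  obtain ⟨hm0, hmR, hgG, hGs, h4, hmg⟩ := checkGadgetSmall_facts L D β m g hs ps G R cert hsmall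
  refine gap_of_gadget_abs L D K β m g τ hs ps G R cert hsmall ?_ ?_
  · intro hf1
    have hf2 : FitsM (G.take (3 * (τ + 1))).reverse
        ((List.replicate (τ + 1) L : List ℕ) : Multiset ℕ) := by
      rw [Multiset.coe_replicate]
      exact FitsM.perm hf1 (List.reverse_perm _).symm
    refine not_fits_of_searchB g f (by omega) _ _ ?_ ?_ ?_ H1 hf2
    · rw [List.pairwise_reverse]
      exact hGs.sublist (List.take_sublist _ _)
    · intro y hy
      exact hgG y (List.mem_of_mem_take (List.mem_reverse.1 hy))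
    · intro c hc
      rw [List.eq_of_mem_replicate hc]
      exact h4
  · intro j b2 b1 b0 hj e1 e2
    apply not_fits_cfgB L g β m f b2 b1 b0 R hm0 hRs hmR hL4
    intro p hp
    apply H2 p
    unfold gadgetStates
    exact List.mem_flatMap.2 ⟨(b2, b1, b0), mem_allCfgs _ _ _ j b2 b1 b0 hj e1 e2, hp⟩

end Vale.Agent.Lib.P302
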