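import Vale.Agent.Lib.P302.Defs

/-!
# A verified checker for bin packing gap instances

* `search` : an exhaustive branch and bound search on integer sizes; `not_packable` shows that a
  negative answer refutes `Packable`.
* `LP_le_of_cert` : an explicit fractional solution bounds `LP` from above.
* `gap_of_cert` : both combined.
-/

namespace Vale.Agent.Lib.P302

open Finset

/-! ## The abstract fitting relation -/

/-- The items `xs` fit into bins whose free capacities form the multiset `caps`. -/
def FitsM : List ℕ → Multiset ℕ → Prop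
  | [], _ => True
  | x :: xs, caps => ∃ c ∈ caps, x ≤ c ∧ FitsM xs ((c - x) ::ₘ caps.erase c)

theorem FitsM.sum_le : ∀ (xs : List ℕ) (s : Multiset ℕ), FitsM xs s → xs.sum ≤ s.sum
  | [], _, _ => by simp
  | x :: xs, s, h => by
    obtain ⟨c, hc, hxc, h⟩ := h
    have h1 := FitsM.sum_le xs _ h
    have h2 : s.sum = c + (s.erase c).sum := by
      conv_lhs => rw [← Multiset.cons_erase hc]
      simp
    simp only [Multiset.sum_cons] at h1
    simp only [List.sum_cons]
    omega

theorem FitsM.drop (d : ℕ) : ∀ (xs : List ℕ) (s : Multiset ℕ), (∀ y ∈ xs, d < y) →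
    FitsM xs (d ::ₘ s) → FitsM xs s
  | [], _, _, _ => trivial
  | x :: xs, s, hd, h => by
    obtain ⟨c, hc, hxc, h⟩ := h
    have hdx : d < x := hd x (by simp)
    have hne : c ≠ d := by omega
    have hcs : c ∈ s := by
      rcases Multiset.mem_cons.1 hc with h' | h'
      · exact absurd h' hne
      · exact h'
    refine ⟨c, hcs, hxc, ?_⟩
    rw [Multiset.erase_cons_tail _ (Ne.symm hne), Multiset.cons_swap] at h
    exact FitsM.drop d xs _ (fun y hy => hd y (by simp [hy])) h

/-! ## From packings to the fitting relation -/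

/-- Packing into `k` bins with prescribed rational capacities. -/
def PackQ {k : ℕ} (a : List ℚ) (caps : Fin k → ℚ) : Prop :=
  ∃ f : Fin a.length → Fin k, ∀ j, ∑ i with f i = j, a.get i ≤ caps j

theorem PackQ.nonneg {k : ℕ} {a : List ℚ} {caps : Fin k → ℚ} (h : PackQ a caps)
    (ha : ∀ x ∈ a, 0 ≤ x) (j : Fin k) : 0 ≤ caps j := by
  obtain ⟨f, hf⟩ := h
  exact le_trans (Finset.sum_nonneg fun i _ => ha _ (List.get_mem a i)) (hf j)

theorem PackQ.cons {k : ℕ} {y : ℚ} {ys : List ℚ} {caps : Fin k → ℚ}
    (h : PackQ (y :: ys) caps) :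
    ∃ j0, PackQ ys (Function.update caps j0 (caps j0 - y)) := by
  obtain ⟨f, hf⟩ := h
  change Fin (ys.length + 1) → Fin k at f
  refine ⟨f 0, fun i => f i.succ, fun j => ?_⟩
  have h1 := hf j
  rw [Finset.sum_filter] at h1
  have h2 : (∑ i : Fin (ys.length + 1), if f i = j then (y :: ys).get i else 0)
      = (if f 0 = j then y else 0) + ∑ i : Fin ys.length, if f i.succ = j then ys.get i else 0 := by
    rw [Fin.sum_univ_succ]
    rfl
  rw [Finset.sum_filter]
  have h3 : (∑ i : Fin (ys.length + 1), if f i = j then (y :: ys).get i else 0) ≤ caps j := h1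
  rw [h2] at h3
  by_cases hj : j = f 0
  · subst hj
    simp only [if_true, Function.update_self] at h3 ⊢
    linarith
  · rw [Function.update_of_ne hj]
    rw [if_neg (Ne.symm hj)] at h3
    linarith

theorem map_update_univ {k : ℕ} (cap : Fin k → ℕ) (j0 : Fin k) (v : ℕ) :
    (Finset.univ.val.map (Function.update cap j0 v))
      = v ::ₘ (Finset.univ.val.map cap).erase (cap j0) := by
  obtain ⟨s, hs⟩ := Multiset.exists_cons_of_mem (Finset.mem_univ_val j0)
  have hnd : (j0 ::ₘ s).Nodup := hs ▸ (Finset.univ : Finset (Fin k)).nodup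
  have hnot : j0 ∉ s := (Multiset.nodup_cons.1 hnd).1
  rw [hs, Multiset.map_cons, Multiset.map_cons, Function.update_self, Multiset.erase_cons_head]
  congr 1
  apply Multiset.map_congr rfl
  intro j hj
  exact Function.update_of_ne (by rintro rfl; exact hnot hj) _ _

theorem fits_of_packQ (L : ℕ) (hL : 0 < L) {k : ℕ} : ∀ (l : List ℕ) (cap : Fin k → ℕ),
    PackQ (l.map (fun x : ℕ => (x : ℚ) / L)) (fun j => (cap j : ℚ) / L) →
      FitsM l (Finset.univ.val.map cap)
  | [], _, _ => trivial
  | x :: xs, cap, h => by
    have hLq : (0 : ℚ) < L := by exact_mod_cast hL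
    rw [List.map_cons] at h
    obtain ⟨j0, h0⟩ := h.cons
    have hnn : ∀ q ∈ xs.map (fun x : ℕ => (x : ℚ) / L), 0 ≤ q := by
      intro q hq
      obtain ⟨z, -, rfl⟩ := List.mem_map.1 hq
      positivity
    have h1 := h0.nonneg hnn j0
    rw [Function.update_self] at h1
    have h2 : (x : ℚ) ≤ cap j0 := by
      have : (x : ℚ) / L ≤ (cap j0 : ℚ) / L := by linarith
      exact (div_le_div_iff_of_pos_right hLq).1 this
    have h3 : x ≤ cap j0 := by exact_mod_cast h2
    refine ⟨cap j0, Multiset.mem_map_of_mem _ (Finset.mem_univ_val j0), h3, ?_⟩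
    rw [← map_update_univ]
    apply fits_of_packQ L hL xs
    have h4 : (fun j => ((Function.update cap j0 (cap j0 - x) j : ℕ) : ℚ) / L)
        = Function.update (fun j => (cap j : ℚ) / L) j0 ((cap j0 : ℚ) / L - (x : ℚ) / L) := by
      funext j
      by_cases hj : j = j0
      · subst hj
        simp only [Function.update_self]
        rw [Nat.cast_sub h3]
        ring
      · simp only [Function.update_of_ne hj]
    rw [h4]
    exact h0

/-! ## The executable search -/

/-- Continue after putting an item of size `x` into a bin of free capacity `c`; `rest` are the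
other bins.  A bin whose free capacity drops below `m` (a lower bound for all items) is closed
and its free capacity is charged to `slack`. -/
def body (m x : ℕ) (k : List ℕ → ℕ → Bool) (slack c : ℕ) (rest : List ℕ) : Bool :=
  if m ≤ c - x then k ((c - x) :: rest) slack
  else Nat.ble (c - x) slack && k rest (slack - (c - x))

/-- Try all bins of `post` for the item `x`; `pre` are the bins already tried.  A bin with the
same free capacity as a bin already tried is skipped. -/
def tryBins (m x : ℕ) (k : List ℕ → ℕ → Bool) (slack : ℕ) : List ℕ → List ℕ → Bool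
  | _, [] => false
  | pre, c :: post =>
    (Nat.ble x c && (!(pre.elem c) && body m x k slack c (pre ++ post)))
      || tryBins m x k slack (c :: pre) post

/-- Exhaustive search: can the items be put into bins with free capacities `caps`, wasting at
most `slack`? -/
def search (m : ℕ) : List ℕ → List ℕ → ℕ → Bool
  | [], _, _ => true
  | x :: xs, caps, slack => tryBins m x (search m xs) slack [] caps

theorem tryBins_true (m x : ℕ) (k : List ℕ → ℕ → Bool) (slack c : ℕ) (R : List ℕ)
    (hxc : x ≤ c) (H : ∀ rest, rest.Perm R → body m x k slack c rest = true) :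
    ∀ post pre : List ℕ, c ∈ post → c ∉ pre → ((pre ++ post).erase c).Perm R →
      tryBins m x k slack pre post = true
  | [], _, h, _, _ => by simp at h
  | d :: post, pre, h, hpre, hR => by
    unfold tryBins
    by_cases hd : d = c
    · subst hd
      have h1 : Nat.ble x d = true := by rw [Nat.ble_eq]; exact hxc
      have h2 : pre.elem d = false := by
        simpa using hpre
      have h3 : body m x k slack d (pre ++ post) = true := by
        apply H
        rw [List.erase_append_right _ hpre, List.erase_cons_head] at hR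
        exact hR
      rw [h1, h2, h3]
      rfl
    · have h1 : c ∈ post := by
        rcases List.mem_cons.1 h with h' | h'
        · exact absurd h'.symm hd
        · exact h'
      have h2 : c ∉ d :: pre := by
        intro h'
        rcases List.mem_cons.1 h' with h' | h'
        · exact hd h'.symm
        · exact hpre h'
      have h3 : (((d :: pre) ++ post).erase c).Perm R := by
        refine List.Perm.trans (List.Perm.erase c ?_) hR
        exact (List.perm_middle (l₁ := pre) (l₂ := post) (a := d)).symm
      rw [tryBins_true m x k slack c R hxc H post (d :: pre) h1 h2 h3]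
      simp

theorem search_complete (m : ℕ) : ∀ (xs caps : List ℕ) (slack : ℕ), (∀ y ∈ xs, m ≤ y) →
    FitsM xs (caps : Multiset ℕ) → caps.sum ≤ xs.sum + slack → search m xs caps slack = true
  | [], _, _, _, _, _ => rfl
  | x :: xs, caps, slack, hm, hfit, hsl => by
    obtain ⟨c, hc, hxc, hfit⟩ := hfit
    have hc' : c ∈ caps := by simpa using hc
    have hm' : ∀ y ∈ xs, m ≤ y := fun y hy => hm y (by simp [hy])
    have hsum : caps.sum = c + (caps.erase c).sum := by
      have := (List.perm_cons_erase hc').sum_eq
      simpa using this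
    unfold search
    apply tryBins_true m x (search m xs) slack c (caps.erase c) hxc ?_ caps [] hc' (by simp)
      (by simp)
    intro rest hrest
    have hrs : rest.sum = (caps.erase c).sum := hrest.sum_eq
    have hcoe : ((caps : Multiset ℕ).erase c) = (rest : Multiset ℕ) := by
      rw [Multiset.coe_erase]
      exact (Multiset.coe_eq_coe.2 hrest).symm
    rw [hcoe] at hfit
    simp only [List.sum_cons] at hsl
    unfold body
    split_ifs with hlive
    · apply search_complete m xs _ slack hm'
      · simpa using hfit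
      · simp only [List.sum_cons]
        omega
    · have hfit' : FitsM xs (rest : Multiset ℕ) :=
        FitsM.drop (c - x) xs _ (fun y hy => lt_of_lt_of_le (not_le.1 hlive) (hm' y hy)) hfit
      have hle := FitsM.sum_le xs _ hfit'
      simp only [Multiset.sum_coe] at hle
      have h1 : Nat.ble (c - x) slack = true := by rw [Nat.ble_eq]; omega
      rw [h1, search_complete m xs rest _ hm' hfit' (by omega)]
      rfl

/-- The instance with integer sizes `l` and integer bin capacity `L`, scaled to capacity `1`. -/
def inst (L : ℕ) (l : List ℕ) : List ℚ := l.map (fun x : ℕ => (x : ℚ) / L)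

theorem not_packable (L k m : ℕ) (l : List ℕ) (hL : 0 < L) (hm : ∀ y ∈ l, m ≤ y)
    (h : search m l (List.replicate k L) (k * L - l.sum) = false) :
    ¬ Packable (inst L l) k := by
  intro hp
  have hLq : (0 : ℚ) < L := by exact_mod_cast hL
  have h1 : PackQ (l.map (fun x : ℕ => (x : ℚ) / L)) (fun _ : Fin k => ((L : ℕ) : ℚ) / L) := by
    obtain ⟨f, hf⟩ := hp
    refine ⟨f, fun j => ?_⟩
    rw [div_self hLq.ne']
    exact hf j
  have h2 := fits_of_packQ L hL l (fun _ : Fin k => L) h1
  have h3 : (Finset.univ.val.map (fun _ : Fin k => L)) = ((List.replicate k L : List ℕ) : Multiset ℕ) := by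
    rw [Multiset.map_const', Multiset.coe_replicate]
    simp
  rw [h3] at h2
  have h4 := search_complete m l (List.replicate k L) (k * L - l.sum) hm h2 (by
    simp only [List.sum_replicate, smul_eq_mul]
    omega)
  rw [h] at h4
  exact Bool.false_ne_true h4

/-! ## The optimum -/

theorem packable_length (a : List ℚ) (ha : ∀ x ∈ a, x ≤ 1) : Packable a a.length := by
  refine ⟨id, fun j => ?_⟩
  rw [Finset.sum_filter]
  simp only [id]
  rw [Finset.sum_ite_eq' Finset.univ j]
  simp only [Finset.mem_univ, if_true]
  exact ha _ (List.get_mem a j)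

theorem Packable.mono {a : List ℚ} {k k' : ℕ} (hk : k ≤ k') (h : Packable a k) :
    Packable a k' := by
  obtain ⟨f, hf⟩ := h
  refine ⟨fun i => Fin.castLE hk (f i), fun j => ?_⟩
  by_cases hj : (j : ℕ) < k
  · have : (Finset.univ.filter fun i => Fin.castLE hk (f i) = j)
        = Finset.univ.filter fun i => f i = ⟨j, hj⟩ := by
      ext i
      simp only [Finset.mem_filter, Finset.mem_univ, true_and, Fin.ext_iff, Fin.val_castLE]
    rw [this]
    exact hf _
  · have : (Finset.univ.filter fun i => Fin.castLE hk (f i) = j) = ∅ := by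
      ext i
      simp only [Finset.mem_filter, Finset.mem_univ, true_and, Fin.ext_iff, Fin.val_castLE,
        Finset.notMem_empty, iff_false]
      intro h'
      exact hj (h' ▸ (f i).2)
    rw [this]
    simp

theorem succ_le_OPT (a : List ℚ) (ha : ∀ x ∈ a, x ≤ 1) (k : ℕ) (h : ¬ Packable a k) :
    k + 1 ≤ OPT a := by
  have hmem : Packable a (OPT a) := Nat.sInf_mem (s := {k | Packable a k}) ⟨_, packable_length a ha⟩
  by_contra hlt
  exact h (hmem.mono (by omega))

/-! ## The configuration LP -/

theorem LP_set_bddBelow (a : List ℚ) :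
    BddBelow {v : ℝ | ∃ z, IsFracCover a z ∧ v = z.sum (fun _ w => w)} := by
  refine ⟨0, ?_⟩
  rintro v ⟨z, hz, rfl⟩
  exact Finset.sum_nonneg fun c _ => hz.1 c

theorem isConfig_toFinsupp (a : List ℚ) (p : Multiset ℚ) (hp : ∀ σ ∈ p, σ ∈ a)
    (hs : p.sum ≤ 1) : IsConfig a (Multiset.toFinsupp p) := by
  refine ⟨fun σ hσ => hp σ ?_, ?_⟩
  · rw [Multiset.toFinsupp_support] at hσ
    exact Multiset.mem_toFinset.1 hσ
  · have : (Multiset.toFinsupp p).sum (fun σ m => σ * (m : ℚ)) = p.sum := by
      rw [Finsupp.sum, Multiset.toFinsupp_support, Finset.sum_multiset_count p]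
      apply Finset.sum_congr rfl
      intro σ _
      rw [Multiset.toFinsupp_apply, nsmul_eq_mul, mul_comm]
    rw [this]
    exact hs

/-- The weight function belonging to a list of (configuration, weight) pairs. -/
noncomputable def certZ (cert : List (Multiset ℚ × ℝ)) : (ℚ →₀ ℕ) →₀ ℝ :=
  (cert.map fun pw => Finsupp.single (Multiset.toFinsupp pw.1) pw.2).sum

theorem certZ_nonneg : ∀ (cert : List (Multiset ℚ × ℝ)), (∀ pw ∈ cert, 0 ≤ pw.2) →
    ∀ c, 0 ≤ certZ cert c
  | [], _, c => by simp [certZ]
  | pw :: cert, h, c => by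
    have h1 := certZ_nonneg cert (fun q hq => h q (by simp [hq])) c
    have h2 : 0 ≤ pw.2 := h pw (by simp)
    have h3 : certZ (pw :: cert) c
        = Finsupp.single (Multiset.toFinsupp pw.1) pw.2 c + certZ cert c := by
      simp [certZ]
    rw [h3, Finsupp.single_apply]
    split_ifs <;> linarith

theorem certZ_support : ∀ (cert : List (Multiset ℚ × ℝ)) (c : ℚ →₀ ℕ), c ∈ (certZ cert).support →
    ∃ pw ∈ cert, c = Multiset.toFinsupp pw.1
  | [], c, h => by simp [certZ] at h
  | pw :: cert, c, h => by
    have h3 : certZ (pw :: cert)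
        = Finsupp.single (Multiset.toFinsupp pw.1) pw.2 + certZ cert := by
      simp [certZ]
    rw [h3] at h
    rcases Finset.mem_union.1 (Finsupp.support_add h) with h' | h'
    · have := Finsupp.support_single_subset h'
      exact ⟨pw, by simp, by simpa using this⟩
    · obtain ⟨q, hq, hc⟩ := certZ_support cert c h'
      exact ⟨q, by simp [hq], hc⟩

theorem certZ_sum (g : (ℚ →₀ ℕ) → ℝ) : ∀ (cert : List (Multiset ℚ × ℝ)),
    (certZ cert).sum (fun c w => g c * w)
      = (cert.map fun pw => g (Multiset.toFinsupp pw.1) * pw.2).sum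
  | [] => by simp [certZ]
  | pw :: cert => by
    have h3 : certZ (pw :: cert)
        = Finsupp.single (Multiset.toFinsupp pw.1) pw.2 + certZ cert := by
      simp [certZ]
    rw [h3, Finsupp.sum_add_index' (by simp) (by intro c x y; ring), certZ_sum g cert,
      Finsupp.sum_single_index (by simp)]
    simp

theorem LP_le_of_list (a : List ℚ) (cert : List (Multiset ℚ × ℝ))
    (h0 : ∀ pw ∈ cert, 0 ≤ pw.2)
    (hc : ∀ pw ∈ cert, (∀ σ ∈ pw.1, σ ∈ a) ∧ pw.1.sum ≤ 1)
    (hcov : ∀ σ ∈ a, (a.count σ : ℝ) ≤ (cert.map fun pw => (pw.1.count σ : ℝ) * pw.2).sum) :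
    LP a ≤ (cert.map fun pw => pw.2).sum := by
  apply csInf_le (LP_set_bddBelow a)
  refine ⟨certZ cert, ⟨certZ_nonneg cert h0, ?_, ?_⟩, ?_⟩
  · intro c hcs
    obtain ⟨pw, hpw, rfl⟩ := certZ_support cert c hcs
    exact isConfig_toFinsupp a pw.1 (hc pw hpw).1 (hc pw hpw).2
  · intro σ hσ
    rw [certZ_sum (fun c => (c σ : ℝ)) cert]
    simpa [Multiset.toFinsupp_apply] using hcov σ hσ
  · have := certZ_sum (fun _ => (1 : ℝ)) cert
    simp only [one_mul] at this
    exact this.symm

/-- Boolean check of an integer LP certificate: patterns are lists of integer sizes, weights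
are numerators over the common denominator `D`. -/
def checkCert (L D : ℕ) (l : List ℕ) (cert : List (List ℕ × ℕ)) : Bool :=
  cert.all (fun pw => Nat.ble pw.1.sum L && pw.1.all (fun s => l.elem s)) &&
    l.all (fun s => Nat.ble (l.count s * D) (cert.map fun pw => pw.1.count s * pw.2).sum)

theorem LP_le_of_cert (L D : ℕ) (hL : 0 < L) (hD : 0 < D) (l : List ℕ)
    (cert : List (List ℕ × ℕ)) (h : checkCert L D l cert = true) :
    LP (inst L l) ≤ ((cert.map fun pw => pw.2).sum : ℕ) / (D : ℝ) := by
  have hLq : (0 : ℚ) < L := by exact_mod_cast hL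
  have hDr : (0 : ℝ) < D := by exact_mod_cast hD
  have hinj : Function.Injective (fun x : ℕ => (x : ℚ) / L) := by
    intro x y hxy
    have : (x : ℚ) = y := by
      have h' : (x : ℚ) / L = (y : ℚ) / L := hxy
      field_simp at h'
      exact h'
    exact_mod_cast this
  unfold checkCert at h
  rw [Bool.and_eq_true, List.all_eq_true, List.all_eq_true] at h
  obtain ⟨h1, h2⟩ := h
  have key := LP_le_of_list (inst L l)
    (cert.map fun pw => (((pw.1.map fun x : ℕ => (x : ℚ) / L : List ℚ) : Multiset ℚ),
      (pw.2 : ℝ) / D)) ?_ ?_ ?_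
  · refine le_trans key (le_of_eq ?_)
    rw [List.map_map]
    clear key h1 h2
    induction cert with
    | nil => simp
    | cons pw cert ih =>
      simp only [List.map_cons, List.sum_cons, Function.comp] at ih ⊢
      rw [ih]
      push_cast
      ring
  · intro pw hpw
    obtain ⟨q, -, rfl⟩ := List.mem_map.1 hpw
    positivity
  · intro pw hpw
    obtain ⟨q, hq, rfl⟩ := List.mem_map.1 hpw
    have h3 := h1 q hq
    rw [Bool.and_eq_true, List.all_eq_true, Nat.ble_eq] at h3
    refine ⟨?_, ?_⟩
    · intro σ hσ
      simp only [Multiset.mem_coe] at hσ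
      obtain ⟨s, hs, rfl⟩ := List.mem_map.1 hσ
      have := h3.2 s hs
      exact List.mem_map_of_mem (by simpa using this)
    · simp only [Multiset.sum_coe]
      have h4 : (q.1.map fun x : ℕ => (x : ℚ) / L).sum = (q.1.sum : ℚ) / L := by
        clear h3 hq hpw
        induction q.1 with
        | nil => simp
        | cons x xs ih =>
          simp only [List.map_cons, List.sum_cons]
          rw [ih]
          push_cast
          ring
      rw [h4, div_le_one hLq]
      exact_mod_cast h3.1
  · intro σ hσ
    obtain ⟨s, hs, rfl⟩ := List.mem_map.1 hσ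
    have h3 := h2 s hs
    rw [Nat.ble_eq] at h3
    have h5 : (inst L l).count ((s : ℚ) / L) = l.count s :=
      List.count_map_of_injective l _ hinj s
    rw [h5, List.map_map]
    have h6 : (cert.map ((fun pw : Multiset ℚ × ℝ => (pw.1.count ((s : ℚ) / L) : ℝ) * pw.2) ∘
        fun pw : List ℕ × ℕ => (((pw.1.map fun x : ℕ => (x : ℚ) / L : List ℚ) : Multiset ℚ),
          (pw.2 : ℝ) / D))).sum
        = ((cert.map fun pw => pw.1.count s * pw.2).sum : ℕ) / (D : ℝ) := by
      clear h1 h2 h3
      induction cert with
      | nil => simp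
      | cons pw cert ih =>
        simp only [List.map_cons, List.sum_cons, Function.comp] at ih ⊢
        rw [ih, Multiset.coe_count]
        have : (pw.1.map fun x : ℕ => (x : ℚ) / L).count ((s : ℚ) / L) = pw.1.count s :=
          List.count_map_of_injective pw.1 _ hinj s
        rw [this]
        push_cast
        ring
    rw [h6, le_div_iff₀ hDr]
    exact_mod_cast h3

/-! ## Putting things together -/

theorem inst_valid (L : ℕ) (l : List ℕ) (h : ∀ y ∈ l, 0 < y ∧ y ≤ L) :
    ∀ x ∈ inst L l, 0 < x ∧ x ≤ 1 := by
  intro x hx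
  obtain ⟨y, hy, rfl⟩ := List.mem_map.1 hx
  obtain ⟨h1, h2⟩ := h y hy
  have hLq : (0 : ℚ) < L := by exact_mod_cast lt_of_lt_of_le h1 h2
  have h1q : (0 : ℚ) < y := by exact_mod_cast h1
  refine ⟨by positivity, ?_⟩
  rw [div_le_one hLq]
  exact_mod_cast h2

/-- All the Boolean checks for a gap instance. -/
def checkAll (L D k m : ℕ) (l : List ℕ) (cert : List (List ℕ × ℕ)) : Bool :=
  Nat.blt 0 D && Nat.blt 0 m && l.all (fun y => Nat.ble m y && Nat.ble y L) && checkCert L D l cert
    && !(search m l (List.replicate k L) (k * L - l.sum))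

theorem gap_of_cert (L D k m : ℕ) (l : List ℕ) (cert : List (List ℕ × ℕ)) (hne : l ≠ [])
    (h : checkAll L D k m l cert = true) :
    (∀ x ∈ inst L l, 0 < x ∧ x ≤ 1) ∧ k + 1 ≤ OPT (inst L l) ∧
      LP (inst L l) ≤ ((cert.map fun pw => pw.2).sum : ℕ) / (D : ℝ) := by
  unfold checkAll at h
  simp only [Bool.and_eq_true, Nat.blt_eq, List.all_eq_true, Nat.ble_eq, Bool.not_eq_true'] at h
  obtain ⟨⟨⟨⟨hD, hm⟩, hl⟩, hcert⟩, hs⟩ := h
  have hL : 0 < L := by
    obtain ⟨y, hy⟩ := List.exists_mem_of_ne_nil l hne
    have := hl y hy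
    omega
  have hv := inst_valid L l (fun y hy => ⟨by have := hl y hy; omega, (hl y hy).2⟩)
  exact ⟨hv, succ_le_OPT _ (fun x hx => (hv x hx).2) k
    (not_packable L k m l hL (fun y hy => (hl y hy).1) hs), LP_le_of_cert L D hL hD l cert hcert⟩

theorem gap_ge (L D k m : ℕ) (l : List ℕ) (cert : List (List ℕ × ℕ)) (hne : l ≠ [])
    (h : checkAll L D k m l cert = true) :
    ((k : ℝ) + 1) - ((cert.map fun pw => pw.2).sum : ℕ) / (D : ℝ)
      ≤ (OPT (inst L l) : ℝ) - LP (inst L l) := by
  obtain ⟨-, h2, h3⟩ := gap_of_cert L D k m l cert hne h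
  have h2' : ((k : ℝ) + 1) ≤ (OPT (inst L l) : ℝ) := by exact_mod_cast h2
  linarith

end Vale.Agent.Lib.P302
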