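import Vale.Agent.Lib.P302.Checker

/-!
# A counting certificate for the non-existence of packings

Items are split into size classes carrying integer weights.  If every feasible bin has weight at
most `ω`, apart from a few exceptional types of bins of weight `ω + 1` of which only few disjoint
copies exist, and the total weight is too large, then the items cannot be packed.
-/

namespace Vale.Agent.Lib.P302

open Multiset

/-! ## Explicit partitions -/

/-- `P` is a family of bins (capacity, content) packing the items `s` into capacities `caps`. -/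
def IsPart (P : Multiset (ℕ × Multiset ℕ)) (s caps : Multiset ℕ) : Prop :=
  P.map Prod.fst = caps ∧ (P.map Prod.snd).sum = s ∧ ∀ p ∈ P, p.2.sum ≤ p.1

theorem FitsM.exists_part : ∀ (l : List ℕ) (caps : Multiset ℕ), FitsM l caps →
    ∃ P, IsPart P (l : Multiset ℕ) caps
  | [], caps, _ => by
    refine ⟨caps.map fun c => (c, 0), ?_, ?_, ?_⟩
    · simp [Multiset.map_map]
    · rw [Multiset.map_map]
      simp
    · intro p hp
      obtain ⟨c, -, rfl⟩ := Multiset.mem_map.1 hp
      simp
  | x :: xs, caps, h => by
    obtain ⟨c, hc, hxc, h⟩ := h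
    obtain ⟨P, h1, h2, h3⟩ := FitsM.exists_part xs _ h
    have hmem : c - x ∈ P.map Prod.fst := by rw [h1]; exact Multiset.mem_cons_self _ _
    obtain ⟨p, hp, hpc⟩ := Multiset.mem_map.1 hmem
    refine ⟨(c, x ::ₘ p.2) ::ₘ P.erase p, ?_, ?_, ?_⟩
    · rw [Multiset.map_cons, Multiset.map_erase_of_mem _ _ hp, h1, hpc, Multiset.erase_cons_head]
      exact Multiset.cons_erase hc
    · rw [Multiset.map_cons, Multiset.sum_cons]
      have h4 : p.2 + ((P.erase p).map Prod.snd).sum = (xs : Multiset ℕ) := by
        rw [← h2, ← Multiset.sum_cons, ← Multiset.map_cons Prod.snd, Multiset.cons_erase hp]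
      show x ::ₘ p.2 + _ = _
      rw [Multiset.cons_add, h4]
      rfl
    · intro q hq
      rcases Multiset.mem_cons.1 hq with rfl | hq
      · have := h3 p hp
        simp only [Multiset.sum_cons]
        omega
      · exact h3 q (Multiset.mem_of_mem_erase hq)

theorem fitsM_of_part : ∀ (l : List ℕ) (P : Multiset (ℕ × Multiset ℕ)) (caps : Multiset ℕ),
    IsPart P (l : Multiset ℕ) caps → FitsM l caps
  | [], _, _, _ => trivial
  | x :: xs, P, caps, ⟨h1, h2, h3⟩ => by
    have hx : x ∈ (P.map Prod.snd).sum := by rw [h2]; simp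
    obtain ⟨b, hb, hxb⟩ := Multiset.mem_join.1 hx
    obtain ⟨p, hp, rfl⟩ := Multiset.mem_map.1 hb
    have hsum : x + (p.2.erase x).sum = p.2.sum := Multiset.sum_erase hxb
    have hle := h3 p hp
    refine ⟨p.1, by rw [← h1]; exact Multiset.mem_map_of_mem _ hp, by omega, ?_⟩
    apply fitsM_of_part xs ((p.1 - x, p.2.erase x) ::ₘ P.erase p)
    refine ⟨?_, ?_, ?_⟩
    · rw [Multiset.map_cons, Multiset.map_erase_of_mem _ _ hp, h1]
    · rw [Multiset.map_cons, Multiset.sum_cons]
      have h4 : p.2 + ((P.erase p).map Prod.snd).sum = x ::ₘ (xs : Multiset ℕ) := by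
        rw [← Multiset.sum_cons, ← Multiset.map_cons Prod.snd, Multiset.cons_erase hp, h2]
        rfl
      have h5 : x ::ₘ (p.2.erase x + ((P.erase p).map Prod.snd).sum) = x ::ₘ (xs : Multiset ℕ) := by
        rw [← Multiset.cons_add, Multiset.cons_erase hxb, h4]
      exact (Multiset.cons_inj_right x).1 h5
    · intro q hq
      rcases Multiset.mem_cons.1 hq with rfl | hq
      · show (p.2.erase x).sum ≤ p.1 - x
        omega
      · exact h3 q (Multiset.mem_of_mem_erase hq)

theorem FitsM.perm {l l' : List ℕ} {caps : Multiset ℕ} (h : FitsM l caps) (hp : l.Perm l') :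
    FitsM l' caps := by
  obtain ⟨P, hP⟩ := FitsM.exists_part l caps h
  apply fitsM_of_part l' P caps
  rw [← Multiset.coe_eq_coe.2 hp]
  exact hP

/-! ## Monotonicity -/

theorem FitsM.cap_mono : ∀ (xs : List ℕ) (a a' : ℕ) (s : Multiset ℕ), a ≤ a' →
    FitsM xs (a ::ₘ s) → FitsM xs (a' ::ₘ s)
  | [], _, _, _, _, _ => trivial
  | x :: xs, a, a', s, haa, h => by
    obtain ⟨c, hc, hxc, h⟩ := h
    by_cases hca : c = a
    · subst hca
      rw [Multiset.erase_cons_head] at h
      refine ⟨a', Multiset.mem_cons_self _ _, by omega, ?_⟩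
      rw [Multiset.erase_cons_head]
      exact FitsM.cap_mono xs (c - x) (a' - x) s (by omega) h
    · have hcs : c ∈ s := by
        rcases Multiset.mem_cons.1 hc with h' | h'
        · exact absurd h' hca
        · exact h'
      rw [Multiset.erase_cons_tail _ (Ne.symm hca), Multiset.cons_swap] at h
      have h' := FitsM.cap_mono xs a a' _ haa h
      refine ⟨c, Multiset.mem_cons_of_mem hcs, hxc, ?_⟩
      by_cases hca' : c = a'
      · subst hca'
        rw [Multiset.erase_cons_head]
        rw [Multiset.cons_swap, Multiset.cons_erase hcs] at h'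
        exact h'
      · rw [Multiset.erase_cons_tail _ (Ne.symm hca'), Multiset.cons_swap]
        exact h'

theorem FitsM.dominate : ∀ (ys xs : List ℕ) (caps : Multiset ℕ),
    List.Forall₂ (fun y x => y ≤ x) ys xs → FitsM xs caps → FitsM ys caps
  | [], _, _, _, _ => trivial
  | y :: ys, [], _, h, _ => by cases h
  | y :: ys, x :: xs, caps, h, hf => by
    obtain ⟨hyx, h⟩ := List.forall₂_cons.1 h
    obtain ⟨c, hc, hxc, hf⟩ := hf
    refine ⟨c, hc, by omega, ?_⟩
    exact FitsM.cap_mono ys (c - x) (c - y) _ (by omega) (FitsM.dominate ys xs _ h hf)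

/-- The first elements of a sorted list are dominated by any sublist. -/
theorem take_dominated : ∀ (A S : List ℕ), A.Pairwise (· ≤ ·) → S.Sublist A →
    List.Forall₂ (fun y x => y ≤ x) (A.take S.length) S
  | _, [], _, _ => by simp
  | [], x :: S, _, h => by simp at h
  | a :: A, x :: S, hA, h => by
    have hA' := List.pairwise_cons.1 hA
    have hx : a ≤ x := by
      have : x ∈ a :: A := h.subset (by simp)
      rcases List.mem_cons.1 this with rfl | h'
      · exact le_refl _
      · exact hA'.1 x h'
    have hS : S.Sublist A := by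
      rcases List.cons_sublist_cons'.1 h with h' | ⟨-, h'⟩
      · exact (List.sublist_cons_self x S).trans h'
      · exact h'
    simp only [List.length_cons, List.take_succ_cons]
    exact List.Forall₂.cons hx (take_dominated A S hA'.2 hS)

/-! ## Classes, weights and the enumeration of class vectors -/

section classes

variable (cl : ℕ → ℕ) (wt : ℕ → ℕ)

/-- The weight of a multiset of items. -/
def weight (b : Multiset ℕ) : ℕ := (b.map fun x => wt (cl x)).sum

/-- The class vector of a multiset of items. -/
def cvec (cs : List ℕ) (b : Multiset ℕ) : List ℕ :=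
  cs.map fun c => card (b.filter fun x => cl x = c)

/-- The items of `l` of class `c`. -/
def blk (l : List ℕ) (c : ℕ) : List ℕ := l.filter fun x => decide (cl x = c)

theorem weight_add (a b : Multiset ℕ) : weight cl wt (a + b) = weight cl wt a + weight cl wt b := by
  simp [weight]

theorem weight_filter (b : Multiset ℕ) (c : ℕ) :
    weight cl wt (b.filter fun x => cl x = c) = card (b.filter fun x => cl x = c) * wt c := by
  unfold weight
  rw [Multiset.map_congr rfl (g := fun _ => wt c)
    (fun x hx => by rw [(Multiset.mem_filter.1 hx).2]), Multiset.map_const',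
    Multiset.sum_replicate, smul_eq_mul]

theorem filter_le_blk (l : List ℕ) (b : Multiset ℕ) (hb : b ≤ (l : Multiset ℕ)) (c : ℕ) :
    (b.filter fun x => cl x = c) ≤ (blk cl l c : Multiset ℕ) := by
  have := Multiset.filter_le_filter (fun x => cl x = c) hb
  rwa [Multiset.filter_coe] at this

theorem blk_pairwise (l : List ℕ) (hl : l.Pairwise (· ≤ ·)) (c : ℕ) :
    (blk cl l c).Pairwise (· ≤ ·) := hl.filter _

/-- The sorted list of a sub-multiset of a sorted list dominates the first elements. -/
theorem take_dominated_sort (A : List ℕ) (hA : A.Pairwise (· ≤ ·)) (T : Multiset ℕ)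
    (hT : T ≤ (A : Multiset ℕ)) :
    List.Forall₂ (fun y x => y ≤ x) (A.take (card T)) (T.sort (· ≤ ·)) := by
  have h1 : (T.sort (· ≤ ·)).Subperm A := by
    rw [← Multiset.coe_le, Multiset.sort_eq]
    exact hT
  have h2 : (T.sort (· ≤ ·)).Sublist A :=
    List.sublist_of_subperm_of_pairwise h1 (Multiset.pairwise_sort T (· ≤ ·)) hA
  have h3 := take_dominated A _ hA h2
  rwa [Multiset.length_sort] at h3

theorem take_sum_le (A : List ℕ) (hA : A.Pairwise (· ≤ ·)) (T : Multiset ℕ)
    (hT : T ≤ (A : Multiset ℕ)) : (A.take (card T)).sum ≤ T.sum := by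
  have h := (take_dominated_sort A hA T hT).sum_le_sum
  rwa [← Multiset.sum_coe (T.sort (· ≤ ·)), Multiset.sort_eq] at h

/-- Enumerate the number `k` of items taken from one class (always the `k` smallest ones). -/
def chkBlock (wc : ℕ) (next : ℕ → ℕ → List ℕ → Bool) (kacc : List ℕ) :
    List ℕ → ℕ → ℕ → ℕ → Bool
  | [], cap, wacc, k => next cap wacc (k :: kacc)
  | a :: A, cap, wacc, k => next cap wacc (k :: kacc) &&
      (!(Nat.ble a cap) || chkBlock wc next kacc A (cap - a) (wacc + wc) (k + 1))

/-- Enumerate all class vectors whose smallest representatives fit into `cap`, and check that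
their weight is at most `ω`, or equal to `ω + 1` with the vector listed in `Ex`. -/
def chk (ω : ℕ) (Ex : List (List ℕ)) : List (List ℕ × ℕ) → ℕ → ℕ → List ℕ → Bool
  | [], _, wacc, kacc => Nat.ble wacc ω || (Nat.beq wacc (ω + 1) && Ex.elem kacc.reverse)
  | (A, wc) :: rest, cap, wacc, kacc => chkBlock wc (chk ω Ex rest) kacc A cap wacc 0

theorem chkBlock_spec (wc : ℕ) (next : ℕ → ℕ → List ℕ → Bool) (kacc : List ℕ) :
    ∀ (A : List ℕ) (cap wacc k0 : ℕ), chkBlock wc next kacc A cap wacc k0 = true →
      ∀ k, (A.take k).sum ≤ cap →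
        next (cap - (A.take k).sum) (wacc + min k A.length * wc) ((k0 + min k A.length) :: kacc)
          = true
  | [], cap, wacc, k0, h, k, _ => by
    simpa [chkBlock] using h
  | a :: A, cap, wacc, k0, h, 0, _ => by
    unfold chkBlock at h
    rw [Bool.and_eq_true] at h
    simpa using h.1
  | a :: A, cap, wacc, k0, h, k + 1, hk => by
    unfold chkBlock at h
    rw [Bool.and_eq_true] at h
    simp only [List.take_succ_cons, List.sum_cons] at hk ⊢
    have h1 : Nat.ble a cap = true := by rw [Nat.ble_eq]; omega
    have h2 : chkBlock wc next kacc A (cap - a) (wacc + wc) (k0 + 1) = true := by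
      simpa [h1] using h.2
    have h3 := chkBlock_spec wc next kacc A (cap - a) (wacc + wc) (k0 + 1) h2 k (by omega)
    have e1 : cap - (a + (A.take k).sum) = cap - a - (A.take k).sum := by omega
    have e2 : min (k + 1) (a :: A).length = min k A.length + 1 := by
      simp only [List.length_cons]
      omega
    have e3 : wacc + (min k A.length + 1) * wc = wacc + wc + min k A.length * wc := by ring
    have e4 : k0 + (min k A.length + 1) = k0 + 1 + min k A.length := by omega
    rw [e1, e2, e3, e4]
    exact h3

theorem chk_spec (ω : ℕ) (Ex : List (List ℕ)) (l : List ℕ) (hl : l.Pairwise (· ≤ ·)) :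
    ∀ (cs : List ℕ), cs.Nodup → ∀ (cap wacc : ℕ) (kacc : List ℕ) (b : Multiset ℕ),
      chk ω Ex (cs.map fun c => (blk cl l c, wt c)) cap wacc kacc = true →
      b ≤ (l : Multiset ℕ) → (∀ x ∈ b, cl x ∈ cs) → b.sum ≤ cap →
      wacc + weight cl wt b ≤ ω ∨
        (wacc + weight cl wt b = ω + 1 ∧ kacc.reverse ++ cvec cl cs b ∈ Ex)
  | [], _, cap, wacc, kacc, b, h, _, hb, _ => by
    have hb0 : b = 0 := Multiset.eq_zero_of_forall_notMem fun x hx => by simpa using hb x hx
    subst hb0
    simp only [List.map_nil, chk, Bool.or_eq_true, Bool.and_eq_true, Nat.ble_eq, Nat.beq_eq,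
      List.elem_eq_mem, decide_eq_true_eq] at h
    simpa [weight, cvec] using h
  | c :: cs, hcs, cap, wacc, kacc, b, h, hbl, hb, hcap => by
    obtain ⟨hc, hcs'⟩ := List.nodup_cons.1 hcs
    set b1 := b.filter fun x => cl x = c with hb1
    set b2 := b.filter fun x => ¬ cl x = c with hb2
    have hsplit : b1 + b2 = b := Multiset.filter_add_not _ b
    have hb1le : b1 ≤ (blk cl l c : Multiset ℕ) := filter_le_blk cl l b hbl c
    have hpre := take_sum_le (blk cl l c) (blk_pairwise cl l hl c) b1 hb1le
    have hlen : card b1 ≤ (blk cl l c).length := by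
      have := Multiset.card_le_card hb1le
      simpa using this
    have hsum : b1.sum + b2.sum = b.sum := by rw [← Multiset.sum_add, hsplit]
    simp only [List.map_cons, chk] at h
    have h1 := chkBlock_spec (wt c) _ kacc (blk cl l c) cap wacc 0 h (card b1) (by omega)
    rw [min_eq_left hlen] at h1
    have h2 := chk_spec ω Ex l hl cs hcs' _ _ _ b2 h1
      (le_trans (Multiset.filter_le _ b) hbl)
      (fun x hx => by
        obtain ⟨hx1, hx2⟩ := Multiset.mem_filter.1 hx
        rcases List.mem_cons.1 (hb x hx1) with h' | h'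
        · exact absurd h' hx2
        · exact h')
      (by omega)
    have hw : weight cl wt b = card b1 * wt c + weight cl wt b2 := by
      rw [← hsplit, weight_add, hb1, weight_filter]
    have hv : cvec cl cs b2 = cvec cl cs b := by
      unfold cvec
      apply List.map_congr_left
      intro c' hc'
      rw [hb2, Multiset.filter_filter]
      congr 1
      apply Multiset.filter_congr
      intro x _
      constructor
      · exact fun h => h.1
      · intro h
        refine ⟨h, ?_⟩
        rw [h]
        rintro rfl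
        exact hc hc'
    have hv2 : ((0 + card b1) :: kacc).reverse ++ cvec cl cs b2
        = kacc.reverse ++ cvec cl (c :: cs) b := by
      rw [hv]
      simp [cvec, hb1]
    rw [hv2] at h2
    rw [hw]
    have e : wacc + card b1 * wt c + weight cl wt b2 = wacc + (card b1 * wt c + weight cl wt b2) := by
      ring
    rw [e] at h2
    exact h2

end classes

/-! ## Few disjoint exceptional bins -/

section exceptional

variable (cl : ℕ → ℕ) (wt : ℕ → ℕ)

/-- For the class vector `e`, the `r * e_c` smallest items of every class `c`. -/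
def smallest (l : List ℕ) (r : ℕ) : List ℕ → List ℕ → List ℕ
  | c :: cs, k :: e => (blk cl l c).take (r * k) ++ smallest l r cs e
  | _, _ => []

theorem smallest_map (l : List ℕ) (r : ℕ) (kf : ℕ → ℕ) : ∀ cs : List ℕ,
    smallest cl l r cs (cs.map kf) = cs.flatMap fun c => (blk cl l c).take (r * kf c)
  | [] => rfl
  | c :: cs => by
    simp only [List.map_cons, smallest, List.flatMap_cons]
    rw [smallest_map l r kf cs]

theorem coe_flatMap_sort (U : Multiset ℕ) : ∀ cs : List ℕ, cs.Nodup →
    ((cs.flatMap fun c => (U.filter fun x => cl x = c).sort (· ≤ ·) : List ℕ) : Multiset ℕ)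
      = U.filter fun x => cl x ∈ cs
  | [], _ => by simp
  | c :: cs, h => by
    obtain ⟨hc, hcs⟩ := List.nodup_cons.1 h
    rw [List.flatMap_cons, ← Multiset.coe_add, coe_flatMap_sort U cs hcs, Multiset.sort_eq,
      Multiset.filter_add_filter]
    have h0 : (U.filter fun x => cl x = c ∧ cl x ∈ cs) = 0 := by
      rw [Multiset.filter_eq_nil]
      rintro x - ⟨h1, h2⟩
      exact hc (h1 ▸ h2)
    rw [h0, add_zero]
    apply Multiset.filter_congr
    intro x _
    simp

theorem forall₂_flatMap (l : List ℕ) (hl : l.Pairwise (· ≤ ·)) (U : Multiset ℕ)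
    (hU : U ≤ (l : Multiset ℕ)) (kk : ℕ → ℕ) : ∀ cs : List ℕ,
    (∀ c ∈ cs, card (U.filter fun x => cl x = c) = kk c) →
    List.Forall₂ (fun y x => y ≤ x) (cs.flatMap fun c => (blk cl l c).take (kk c))
      (cs.flatMap fun c => (U.filter fun x => cl x = c).sort (· ≤ ·))
  | [], _ => by simp
  | c :: cs, h => by
    rw [List.flatMap_cons, List.flatMap_cons]
    apply List.rel_append
    · have := take_dominated_sort (blk cl l c) (blk_pairwise cl l hl c) _ (filter_le_blk cl l U hU c)
      rwa [h c (by simp)] at this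
    · exact forall₂_flatMap l hl U hU kk cs fun c' hc' => h c' (by simp [hc'])

theorem card_filter_sum (p : ℕ → Prop) [DecidablePred p] (Q : Multiset (Multiset ℕ)) :
    card (Q.sum.filter p) = (Q.map fun b => card (b.filter p)).sum := by
  induction Q using Multiset.induction_on with
  | empty => simp
  | cons b Q ih => simp [Multiset.filter_add, ih]

theorem exists_le_card (Q0 : Multiset (Multiset ℕ)) (r : ℕ) (h : r ≤ card Q0) :
    ∃ Q ≤ Q0, card Q = r := by
  induction Q0 using Quotient.inductionOn with
  | _ L0 =>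
    refine ⟨((L0.take r : List (Multiset ℕ)) : Multiset (Multiset ℕ)), ?_, ?_⟩
    · exact Multiset.coe_le.2 (List.take_sublist r L0).subperm
    · have h' : r ≤ L0.length := h
      simp [h']

theorem sum_le_of_le {Q P : Multiset (Multiset ℕ)} (h : Q ≤ P) : Q.sum ≤ P.sum := by
  obtain ⟨R, rfl⟩ := Multiset.le_iff_exists_add.1 h
  rw [Multiset.sum_add]
  exact Multiset.le_add_right _ _

theorem few_exc (L : ℕ) (l : List ℕ) (hl : l.Pairwise (· ≤ ·)) (cs : List ℕ) (hcs : cs.Nodup)
    (hcl : ∀ x ∈ l, cl x ∈ cs) (e : List ℕ) (τ m : ℕ)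
    (hm : ∀ y ∈ smallest cl l (τ + 1) cs e, m ≤ y)
    (hsearch : search m (smallest cl l (τ + 1) cs e).reverse (List.replicate (τ + 1) L)
      ((τ + 1) * L - (smallest cl l (τ + 1) cs e).sum) = false)
    (P : Multiset (Multiset ℕ)) (hP : P.sum ≤ (l : Multiset ℕ)) (hPL : ∀ b ∈ P, b.sum ≤ L) :
    card (P.filter fun b => cvec cl cs b = e) ≤ τ := by
  by_contra hcon
  obtain ⟨Q, hQ, hQc⟩ := exists_le_card (P.filter fun b => cvec cl cs b = e) (τ + 1) (by omega)
  have hQP : Q ≤ P := le_trans hQ (Multiset.filter_le _ P)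
  have hQe : ∀ b ∈ Q, cvec cl cs b = e := fun b hb =>
    (Multiset.mem_filter.1 (Multiset.mem_of_le hQ hb)).2
  have hQL : ∀ b ∈ Q, b.sum ≤ L := fun b hb => hPL b (Multiset.mem_of_le hQP hb)
  have hU : Q.sum ≤ (l : Multiset ℕ) := le_trans (sum_le_of_le hQP) hP
  obtain ⟨b0, hb0⟩ : ∃ b0, b0 ∈ Q := Multiset.card_pos_iff_exists_mem.1 (by omega)
  set kf : ℕ → ℕ := fun c => card (b0.filter fun x => cl x = c) with hkf
  have he : e = cs.map kf := (hQe b0 hb0).symm
  have hcard : ∀ c ∈ cs, card (Q.sum.filter fun x => cl x = c) = (τ + 1) * kf c := by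
    intro c hc
    rw [card_filter_sum, Multiset.map_congr rfl (g := fun _ => kf c), Multiset.map_const',
      Multiset.sum_replicate, hQc, smul_eq_mul]
    intro b hb
    have h1 : cvec cl cs b = cvec cl cs b0 := by rw [hQe b hb, hQe b0 hb0]
    exact List.map_inj_left.1 h1 c hc
  have hxs : ((cs.flatMap fun c => (Q.sum.filter fun x => cl x = c).sort (· ≤ ·) : List ℕ) :
      Multiset ℕ) = Q.sum := by
    rw [coe_flatMap_sort cl Q.sum cs hcs, Multiset.filter_eq_self]
    intro x hx
    exact hcl x (by simpa using Multiset.mem_of_le hU hx)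
  have hfit : FitsM (cs.flatMap fun c => (Q.sum.filter fun x => cl x = c).sort (· ≤ ·))
      (Multiset.replicate (τ + 1) L) := by
    apply fitsM_of_part _ (Q.map fun b => (L, b))
    refine ⟨?_, ?_, ?_⟩
    · rw [Multiset.map_map]
      simp only [Function.comp_def]
      rw [Multiset.map_const', hQc]
    · rw [Multiset.map_map, hxs]
      simp
    · intro p hp
      obtain ⟨b, hb, rfl⟩ := Multiset.mem_map.1 hp
      exact hQL b hb
  have hdom := forall₂_flatMap cl l hl Q.sum hU (fun c => (τ + 1) * kf c) cs hcard
  have hfit2 := FitsM.dominate _ _ _ hdom hfit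
  rw [← smallest_map cl l (τ + 1) kf cs, ← he] at hfit2
  have hfit3 : FitsM (smallest cl l (τ + 1) cs e).reverse
      ((List.replicate (τ + 1) L : List ℕ) : Multiset ℕ) := by
    rw [Multiset.coe_replicate]
    exact hfit2.perm (List.reverse_perm _).symm
  have h4 := search_complete m _ (List.replicate (τ + 1) L)
    ((τ + 1) * L - (smallest cl l (τ + 1) cs e).sum)
    (fun y hy => hm y (by simpa using hy)) hfit3 (by
      simp only [List.sum_replicate, smul_eq_mul, List.sum_reverse]
      omega)
  rw [hsearch] at h4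
  exact Bool.false_ne_true h4

end exceptional

/-! ## The counting argument -/

section counting

variable (cl : ℕ → ℕ) (wt : ℕ → ℕ)

theorem weight_sum (P : Multiset (Multiset ℕ)) :
    weight cl wt P.sum = (P.map (weight cl wt)).sum := by
  induction P using Multiset.induction_on with
  | empty => simp [weight]
  | cons b P ih => simp [weight_add, ih]

theorem one_le_indicator_sum (v : List ℕ) : ∀ ExT : List (List ℕ × ℕ × ℕ),
    v ∈ ExT.map (fun t => t.1) → 1 ≤ (ExT.map fun t => if v = t.1 then 1 else 0).sum
  | [], h => by simp at h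
  | t :: ExT, h => by
    simp only [List.map_cons, List.sum_cons]
    rcases List.mem_cons.1 h with h' | h'
    · rw [if_pos h']
      omega
    · have := one_le_indicator_sum v ExT h'
      omega

theorem weight_bound (ω : ℕ) (cs : List ℕ) (ExT : List (List ℕ × ℕ × ℕ))
    (P : Multiset (Multiset ℕ)) :
    (∀ b ∈ P, weight cl wt b ≤ ω ∨
      (weight cl wt b = ω + 1 ∧ cvec cl cs b ∈ ExT.map fun t => t.1)) →
    (P.map (weight cl wt)).sum ≤ ω * card P +
      (ExT.map fun t => card (P.filter fun b => cvec cl cs b = t.1)).sum := by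
  induction P using Multiset.induction_on with
  | empty => simp
  | cons b P ih =>
    intro h
    have ih' := ih fun b' hb' => h b' (Multiset.mem_cons_of_mem hb')
    have hb := h b (Multiset.mem_cons_self b P)
    have e1 : (ExT.map fun t => card ((b ::ₘ P).filter fun b => cvec cl cs b = t.1)).sum
        = (ExT.map fun t => if cvec cl cs b = t.1 then 1 else 0).sum
          + (ExT.map fun t => card (P.filter fun b => cvec cl cs b = t.1)).sum := by
      rw [← List.sum_map_add]
      congr 1
      apply List.map_congr_left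
      intro t _
      rw [Multiset.filter_cons, Multiset.card_add]
      split_ifs <;> simp
    rw [e1, Multiset.map_cons, Multiset.sum_cons, Multiset.card_cons]
    have e2 : weight cl wt b ≤ ω + (ExT.map fun t => if cvec cl cs b = t.1 then 1 else 0).sum := by
      rcases hb with hb | ⟨hb1, hb2⟩
      · omega
      · have := one_le_indicator_sum _ ExT hb2
        omega
    have e3 : ω * (card P + 1) = ω * card P + ω := by ring
    omega

/-- The Boolean check for one exceptional type `(e, τ, m)`. -/
def chkExc (L : ℕ) (l cs : List ℕ) (t : List ℕ × ℕ × ℕ) : Bool :=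
  (smallest cl l (t.2.1 + 1) cs t.1).all (fun y => Nat.ble t.2.2 y) &&
    !(search t.2.2 (smallest cl l (t.2.1 + 1) cs t.1).reverse (List.replicate (t.2.1 + 1) L)
      ((t.2.1 + 1) * L - (smallest cl l (t.2.1 + 1) cs t.1).sum))

theorem not_fits_of_counting (L K ω : ℕ) (l : List ℕ) (hl : l.Pairwise (· ≤ ·)) (cs : List ℕ)
    (hcs : cs.Nodup) (hcl : ∀ x ∈ l, cl x ∈ cs) (ExT : List (List ℕ × ℕ × ℕ))
    (hchk : chk ω (ExT.map fun t => t.1) (cs.map fun c => (blk cl l c, wt c)) L 0 [] = true)
    (hex : ∀ t ∈ ExT, chkExc cl L l cs t = true)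
    (hw : ω * K + (ExT.map fun t => t.2.1).sum + 1 ≤ (l.map fun x => wt (cl x)).sum) :
    ¬ FitsM l (Multiset.replicate K L) := by
  intro hfit
  obtain ⟨P', h1, h2, h3⟩ := FitsM.exists_part l _ hfit
  set P := P'.map Prod.snd with hP
  have hcard : card P = K := by
    have : card (P'.map Prod.fst) = K := by rw [h1]; simp
    simpa [hP] using this
  have hPL : ∀ b ∈ P, b.sum ≤ L := by
    intro b hb
    obtain ⟨p, hp, rfl⟩ := Multiset.mem_map.1 hb
    have hp1 : p.1 ∈ Multiset.replicate K L := by
      rw [← h1]
      exact Multiset.mem_map_of_mem _ hp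
    rw [← Multiset.eq_of_mem_replicate hp1]
    exact h3 p hp
  have hH1 : ∀ b ∈ P, weight cl wt b ≤ ω ∨
      (weight cl wt b = ω + 1 ∧ cvec cl cs b ∈ ExT.map fun t => t.1) := by
    intro b hb
    have hbl : b ≤ (l : Multiset ℕ) := by
      rw [← h2]
      exact Multiset.le_sum_of_mem hb
    have := chk_spec cl wt ω _ l hl cs hcs L 0 [] b hchk hbl
      (fun x hx => hcl x (by simpa using Multiset.mem_of_le hbl hx)) (hPL b hb)
    simpa using this
  have hb := weight_bound cl wt ω cs ExT P hH1
  have hsum : (ExT.map fun t => card (P.filter fun b => cvec cl cs b = t.1)).sum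
      ≤ (ExT.map fun t => t.2.1).sum := by
    apply List.sum_le_sum
    intro t ht
    have ht' := hex t ht
    unfold chkExc at ht'
    rw [Bool.and_eq_true, List.all_eq_true, Bool.not_eq_true'] at ht'
    exact few_exc cl L l hl cs hcs hcl t.1 t.2.1 t.2.2
      (fun y hy => by simpa using ht'.1 y hy) ht'.2 P (le_of_eq h2) hPL
  have hwl : weight cl wt (l : Multiset ℕ) = (l.map fun x => wt (cl x)).sum := by
    simp [weight]
  rw [← weight_sum, h2, hwl, hcard] at hb
  omega

end counting

/-! ## The executable certificate checker -/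

/-- The class of an item: the number of bounds not exceeding it. -/
def clOf (bounds : List ℕ) (x : ℕ) : ℕ := bounds.countP fun b => Nat.ble b x

/-- The weight of a class. -/
def wtOf (wts : List ℕ) (c : ℕ) : ℕ := wts.getD c 0

/-- All checks of the counting certificate. -/
def checkCount (L K ω : ℕ) (l bounds wts : List ℕ) (ExT : List (List ℕ × ℕ × ℕ)) : Bool :=
  decide (l.Pairwise (· ≤ ·)) &&
  chk ω (ExT.map fun t => t.1)
    ((List.range (bounds.length + 1)).map fun c => (blk (clOf bounds) l c, wtOf wts c)) L 0 [] &&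
  ExT.all (fun t => chkExc (clOf bounds) L l (List.range (bounds.length + 1)) t) &&
  Nat.ble (ω * K + (ExT.map fun t => t.2.1).sum + 1) (l.map fun x => wtOf wts (clOf bounds x)).sum

theorem not_packable_of_checkCount (L K ω : ℕ) (l bounds wts : List ℕ)
    (ExT : List (List ℕ × ℕ × ℕ)) (hL : 0 < L)
    (h : checkCount L K ω l bounds wts ExT = true) : ¬ Packable (inst L l) K := by
  unfold checkCount at h
  simp only [Bool.and_eq_true, decide_eq_true_eq, List.all_eq_true, Nat.ble_eq] at h
  obtain ⟨⟨⟨h1, h2⟩, h3⟩, h4⟩ := h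
  intro hp
  have hLq : (0 : ℚ) < L := by exact_mod_cast hL
  have hq : PackQ (l.map (fun x : ℕ => (x : ℚ) / L)) (fun _ : Fin K => ((L : ℕ) : ℚ) / L) := by
    obtain ⟨f, hf⟩ := hp
    refine ⟨f, fun j => ?_⟩
    rw [div_self hLq.ne']
    exact hf j
  have hfit := fits_of_packQ L hL l (fun _ : Fin K => L) hq
  have hrep : (Finset.univ.val.map (fun _ : Fin K => L)) = Multiset.replicate K L := by
    rw [Multiset.map_const']
    simp
  rw [hrep] at hfit
  exact not_fits_of_counting (clOf bounds) (wtOf wts) L K ω l h1 _ (List.nodup_range)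
    (fun x _ => List.mem_range.2 (Nat.lt_succ_of_le List.countP_le_length)) ExT h2 h3 h4 hfit

end Vale.Agent.Lib.P302
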