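import Mathlib

/-!
# Bin packing, the optimum and the Gilmore-Gomory configuration LP (definitions)
-/

namespace Vale.Agent.Lib.P302

/-- `Packable a k`: the items of the instance `a` (a list of sizes) can be distributed over
`k` bins so that the total size in every bin is at most `1`. -/
def Packable (a : List ℚ) (k : ℕ) : Prop :=
  ∃ f : Fin a.length → Fin k, ∀ j : Fin k, ∑ i with f i = j, a.get i ≤ 1

/-- `OPT a`: the least number of bins into which the items of `a` can be packed. -/
noncomputable def OPT (a : List ℚ) : ℕ := sInf {k | Packable a k}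

/-- A configuration of the instance `a`: a vector of multiplicities, supported on the sizes
occurring in `a`, of total size at most `1` (a multiplicity may exceed the one in `a`). -/
def IsConfig (a : List ℚ) (c : ℚ →₀ ℕ) : Prop :=
  (∀ σ ∈ c.support, σ ∈ a) ∧ c.sum (fun σ m => σ * (m : ℚ)) ≤ 1

/-- A feasible solution of the configuration LP of `a`: nonnegative weights `z c` on
configurations `c` such that every size `σ` of `a` is covered at least as often as it
occurs in `a`. -/
def IsFracCover (a : List ℚ) (z : (ℚ →₀ ℕ) →₀ ℝ) : Prop :=
  (∀ c, 0 ≤ z c) ∧ (∀ c ∈ z.support, IsConfig a c) ∧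
    ∀ σ ∈ a, (a.count σ : ℝ) ≤ z.sum (fun c w => (c σ : ℝ) * w)

/-- The value of the Gilmore-Gomory configuration LP of `a`. -/
noncomputable def LP (a : List ℚ) : ℝ :=
  sInf {v : ℝ | ∃ z, IsFracCover a z ∧ v = z.sum (fun _ w => w)}

end Vale.Agent.Lib.P302
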