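import Vale.Agent.Lib.P302.Hole

/-!
# Bin completion with swap dominance

`bc` is an exhaustive search which always takes the first remaining item `x`, chooses a bin for it
and completes this bin at once.  A completed bin is only accepted if no unused item can be added
to it and no item of the bin (other than `x`) can be exchanged for a larger unused item.
`bc_complete` shows that the search finds a packing whenever there is one.
-/

namespace Vale.Agent.Lib.P302

open Multiset

theorem ble_true {a b : ℕ} (h : a ≤ b) : Nat.ble a b = true := by rw [Nat.ble_eq]; exact h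

theorem blt_true {a b : ℕ} (h : a < b) : Nat.blt a b = true := by rw [Nat.blt_eq]; exact h

theorem lt_of_blt {a b : ℕ} (h : Nat.blt a b = true) : a < b := by rwa [Nat.blt_eq] at h

/-! ## Dominant packings -/

/-- The bin `p` of the packing `P` cannot be improved by moving or exchanging an item. -/
def DomP (x : ℕ) (P : Multiset (ℕ × Multiset ℕ)) (p : ℕ × Multiset ℕ) : Prop :=
  ∀ u ∈ ((P.erase p).map Prod.snd).sum, p.1 - p.2.sum < u ∧
    ∀ w ∈ p.2.erase x, u ≤ w ∨ w + (p.1 - p.2.sum) < u

theorem IsPart.replace2 {P : Multiset (ℕ × Multiset ℕ)} {s caps : Multiset ℕ}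
    {p q p' q' : ℕ × Multiset ℕ} (h : IsPart P s caps) (hp : p ∈ P) (hq : q ∈ P.erase p)
    (h1 : p'.1 = p.1) (h2 : q'.1 = q.1) (hc : p'.2 + q'.2 = p.2 + q.2)
    (hp' : p'.2.sum ≤ p'.1) (hq' : q'.2.sum ≤ q'.1) :
    IsPart (p' ::ₘ q' ::ₘ (P.erase p).erase q) s caps := by
  obtain ⟨a1, a2, a3⟩ := h
  have hP : P = p ::ₘ q ::ₘ (P.erase p).erase q := by
    rw [Multiset.cons_erase hq, Multiset.cons_erase hp]
  refine ⟨?_, ?_, ?_⟩
  · rw [← a1]
    conv_rhs => rw [hP]
    simp only [Multiset.map_cons, h1, h2]
  · rw [← a2]
    conv_rhs => rw [hP]
    simp only [Multiset.map_cons, Multiset.sum_cons]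
    rw [← add_assoc, ← add_assoc, hc]
  · intro r hr
    rcases Multiset.mem_cons.1 hr with rfl | hr
    · exact hp'
    rcases Multiset.mem_cons.1 hr with rfl | hr
    · exact hq'
    · exact a3 r (Multiset.mem_of_mem_erase (Multiset.mem_of_mem_erase hr))

theorem exists_dom (x : ℕ) (s caps : Multiset ℕ) (hpos : ∀ u ∈ s, 0 < u) :
    ∀ (n : ℕ) (P : Multiset (ℕ × Multiset ℕ)) (p : ℕ × Multiset ℕ), IsPart P s caps → p ∈ P →
      x ∈ p.2 → p.1 - p.2.sum ≤ n →
      ∃ P' p', IsPart P' s caps ∧ p' ∈ P' ∧ x ∈ p'.2 ∧ DomP x P' p' := by
  intro n
  induction n with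
  | zero =>
    intro P p hP hp hx hn
    refine ⟨P, p, hP, hp, hx, ?_⟩
    intro u hu
    have hus : u ∈ s := by
      rw [← hP.2.1]
      obtain ⟨b, hb, hub⟩ := Multiset.mem_join.1 hu
      obtain ⟨q, hq, rfl⟩ := Multiset.mem_map.1 hb
      exact Multiset.mem_join.2 ⟨q.2, Multiset.mem_map_of_mem _ (Multiset.mem_of_mem_erase hq), hub⟩
    have := hpos u hus
    refine ⟨by omega, fun w _ => ?_⟩
    omega
  | succ n ih =>
    intro P p hP hp hx hn
    by_cases hD : DomP x P p
    · exact ⟨P, p, hP, hp, hx, hD⟩
    unfold DomP at hD
    push Not at hD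
    obtain ⟨u, hu, hD⟩ := hD
    obtain ⟨b, hb, hub⟩ := Multiset.mem_join.1 hu
    obtain ⟨q, hq, rfl⟩ := Multiset.mem_map.1 hb
    have hqP : q ∈ P := Multiset.mem_of_mem_erase hq
    have hus : u ∈ s := by
      rw [← hP.2.1]
      exact Multiset.mem_join.2 ⟨q.2, Multiset.mem_map_of_mem _ hqP, hub⟩
    have hu0 := hpos u hus
    have hple := hP.2.2 p hp
    have hqle := hP.2.2 q hqP
    have hqsum : u + (q.2.erase u).sum = q.2.sum := Multiset.sum_erase hub
    by_cases hfit : u ≤ p.1 - p.2.sum
    · -- move `u` into the bin
      have hnew := IsPart.replace2 (p' := (p.1, u ::ₘ p.2)) (q' := (q.1, q.2.erase u)) hP hp hq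
        rfl rfl (by
          show u ::ₘ p.2 + q.2.erase u = p.2 + q.2
          rw [Multiset.cons_add, ← Multiset.add_cons, Multiset.cons_erase hub])
        (by show (u ::ₘ p.2).sum ≤ p.1
            rw [Multiset.sum_cons]; omega)
        (by show (q.2.erase u).sum ≤ q.1
            omega)
      refine ih _ (p.1, u ::ₘ p.2) hnew (Multiset.mem_cons_self _ _)
        (Multiset.mem_cons_of_mem hx) ?_
      show p.1 - (u ::ₘ p.2).sum ≤ n
      rw [Multiset.sum_cons]
      omega
    · obtain ⟨w, hw, hwu, huw⟩ := hD (by omega)
      have hwp : w ∈ p.2 := Multiset.mem_of_mem_erase hw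
      have hpsum : w + (p.2.erase w).sum = p.2.sum := Multiset.sum_erase hwp
      have hnew := IsPart.replace2 (p' := (p.1, u ::ₘ p.2.erase w))
        (q' := (q.1, w ::ₘ q.2.erase u)) hP hp hq rfl rfl (by
          show u ::ₘ p.2.erase w + w ::ₘ q.2.erase u = p.2 + q.2
          conv_rhs => rw [← Multiset.cons_erase hwp, ← Multiset.cons_erase hub]
          simp only [Multiset.cons_add, Multiset.add_cons]
          rw [Multiset.cons_swap])
        (by show (u ::ₘ p.2.erase w).sum ≤ p.1
            rw [Multiset.sum_cons]; omega)
        (by show (w ::ₘ q.2.erase u).sum ≤ q.1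
            rw [Multiset.sum_cons]; omega)
      have hx' : x ∈ p.2.erase w := by
        by_cases hwx : x = w
        · subst hwx; exact hw
        · exact (Multiset.mem_erase_of_ne hwx).2 hx
      refine ih _ (p.1, u ::ₘ p.2.erase w) hnew (Multiset.mem_cons_self _ _)
        (Multiset.mem_cons_of_mem hx') ?_
      show p.1 - (u ::ₘ p.2.erase w).sum ≤ n
      rw [Multiset.sum_cons]
      omega

/-! ## The search -/

/-- The dominance test when a bin with content `bin` (apart from its first item) and free space
`free` is closed; `r` are the unused items. -/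
def domOK (free : ℕ) (bin r : List ℕ) : Bool :=
  r.all fun u => Nat.blt free u && bin.all fun w => Nat.ble u w || Nat.blt (w + free) u

/-- Enumerate the ways to complete a bin with free space `free` by items of the list; the
continuation gets the unused items, the chosen items and the remaining free space.  `m` is a
lower bound for all items; an item equal to the item `last` rejected before is not chosen. -/
def fill (m : ℕ) (k : List ℕ → List ℕ → ℕ → Bool) : List ℕ → List ℕ → ℕ → ℕ → Bool
  | [], bin, free, _ => k [] bin free
  | y :: ys, bin, free, last =>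
    cond (Nat.blt free m) (k (y :: ys) bin free)
      ((Nat.ble y free && (!(Nat.beq y last) && fill m k ys (y :: bin) (free - y) last)) ||
        fill m (fun r b f => k (y :: r) b f) ys bin free y)

/-- Try all bins for the item `x`. -/
def tryCaps (m x slack : ℕ) (rest : List ℕ) (rc : List ℕ → List ℕ → ℕ → Bool) :
    List ℕ → List ℕ → Bool
  | _, [] => false
  | pre, c :: post =>
    (Nat.ble x c && (!(pre.elem c) &&
      fill m (fun r bin free => Nat.ble free slack &&
        (domOK free bin r && rc r (pre ++ post) (slack - free))) rest [] (c - x) 0))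
      || tryCaps m x slack rest rc (c :: pre) post

/-- Bin completion search with at most `fuel` levels. -/
def bc (m : ℕ) : ℕ → List ℕ → List ℕ → ℕ → Bool
  | _, [], _, _ => true
  | 0, _ :: _, _, _ => true
  | fuel + 1, x :: rest, caps, slack => tryCaps m x slack rest (bc m fuel) [] caps

theorem fill_true (m : ℕ) : ∀ (ys : List ℕ) (k : List ℕ → List ℕ → ℕ → Bool) (bin : List ℕ)
    (free last : ℕ) (S R : Multiset ℕ), R + S = (ys : Multiset ℕ) → S.sum ≤ free →
    (∀ y ∈ ys, m ≤ y) → last ∉ S →
    (∀ r b : List ℕ, (r : Multiset ℕ) = R → (b : Multiset ℕ) = S + (bin : Multiset ℕ) →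
      k r b (free - S.sum) = true) → fill m k ys bin free last = true
  | [], k, bin, free, last, S, R, hRS, _, _, _, hk => by
    have h0 : R + S = 0 := by rw [hRS]; rfl
    have hR : R = 0 := by
      have := Multiset.card_add R S
      rw [h0] at this
      simp only [Multiset.card_zero] at this
      exact Multiset.card_eq_zero.1 (by omega)
    have hS : S = 0 := by
      have := Multiset.card_add R S
      rw [h0] at this
      simp only [Multiset.card_zero] at this
      exact Multiset.card_eq_zero.1 (by omega)
    subst hR hS
    have := hk [] bin rfl (by simp)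
    simpa [fill] using this
  | y :: ys, k, bin, free, last, S, R, hRS, hS, hm, hlast, hk => by
    unfold fill
    rcases hb : Nat.blt free m with _ | _
    · rw [cond_false]
      have hyRS : y ∈ R + S := by rw [hRS]; simp
      by_cases hy : y ∈ S
      · have hsum : y + (S.erase y).sum = S.sum := Multiset.sum_erase hy
        have h1 : Nat.ble y free = true := ble_true (by omega)
        have h0 : Nat.beq y last = false := by
          rcases hbq : Nat.beq y last with _ | _
          · rfl
          · exact absurd (Nat.eq_of_beq_eq_true hbq ▸ hy) hlast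
        have h2 : fill m k ys (y :: bin) (free - y) last = true := by
          apply fill_true m ys k (y :: bin) (free - y) last (S.erase y) R
          · have : (R + S).erase y = (ys : Multiset ℕ) := by
              rw [hRS, ← Multiset.cons_coe, Multiset.erase_cons_head]
            rw [← this, Multiset.erase_add_right_pos _ hy]
          · omega
          · exact fun z hz => hm z (List.mem_cons_of_mem _ hz)
          · exact fun h => hlast (Multiset.mem_of_mem_erase h)
          · intro r b hr hb'
            have := hk r b hr (by
              rw [hb', ← Multiset.cons_coe, Multiset.add_cons, ← Multiset.cons_add,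
                Multiset.cons_erase hy])
            have e : free - y - (S.erase y).sum = free - S.sum := by omega
            rw [e]
            exact this
        rw [h1, h0, h2]
        rfl
      · have hyR : y ∈ R := (Multiset.mem_add.1 hyRS).resolve_right hy
        have h2 : fill m (fun r b f => k (y :: r) b f) ys bin free y = true := by
          apply fill_true m ys _ bin free y S (R.erase y)
          · have : (R + S).erase y = (ys : Multiset ℕ) := by
              rw [hRS, ← Multiset.cons_coe, Multiset.erase_cons_head]
            rw [← this, Multiset.erase_add_left_pos _ hyR]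
          · exact hS
          · exact fun z hz => hm z (List.mem_cons_of_mem _ hz)
          · exact hy
          · intro r b hr hb'
            exact hk (y :: r) b (by rw [← Multiset.cons_coe, hr, Multiset.cons_erase hyR]) hb'
        rw [h2, Bool.or_true]
    · rw [cond_true]
      have hlt : free < m := lt_of_blt hb
      have hS0 : S = 0 := by
        by_contra hne
        obtain ⟨a, ha⟩ := Multiset.exists_mem_of_ne_zero hne
        have ha' : a ∈ (↑(y :: ys) : Multiset ℕ) := by
          rw [← hRS]; exact Multiset.mem_add.2 (Or.inr ha)
        have h1 := hm a (Multiset.mem_coe.1 ha')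
        have h2 : a ≤ S.sum := Multiset.le_sum_of_mem ha
        omega
      subst hS0
      have := hk (y :: ys) bin (by rw [← hRS]; simp) (by simp)
      simpa using this

theorem tryCaps_true (m x slack c : ℕ) (rest : List ℕ) (rc : List ℕ → List ℕ → ℕ → Bool)
    (hxc : x ≤ c) (T : Multiset ℕ)
    (H : ∀ others : List ℕ, (others : Multiset ℕ) = T →
      fill m (fun r bin free => Nat.ble free slack &&
        (domOK free bin r && rc r others (slack - free))) rest [] (c - x) 0 = true) :
    ∀ post pre : List ℕ, c ∈ post → c ∉ pre → ((pre ++ post : List ℕ) : Multiset ℕ) = c ::ₘ T →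
      tryCaps m x slack rest rc pre post = true
  | [], _, h, _, _ => by simp at h
  | d :: post, pre, h, hpre, hT => by
    unfold tryCaps
    by_cases hd : d = c
    · subst hd
      have h1 : Nat.ble x d = true := ble_true hxc
      have h2 : pre.elem d = false := by
        rw [List.elem_eq_mem]
        exact decide_eq_false hpre
      have h3 := H (pre ++ post) (by
        have e : ((pre ++ d :: post : List ℕ) : Multiset ℕ)
            = d ::ₘ ((pre ++ post : List ℕ) : Multiset ℕ) := by
          rw [Multiset.cons_coe]
          exact Multiset.coe_eq_coe.2 List.perm_middle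
        rw [e] at hT
        exact (Multiset.cons_inj_right d).1 hT)
      rw [h1, h2, h3]
      rfl
    · have hc : c ∈ post := by
        rcases List.mem_cons.1 h with h' | h'
        · exact absurd h'.symm hd
        · exact h'
      have := tryCaps_true m x slack c rest rc hxc T H post (d :: pre) hc
        (by
          intro h'
          rcases List.mem_cons.1 h' with h'' | h''
          · exact hd h''.symm
          · exact hpre h'')
        (by
          rw [← hT]
          apply Multiset.coe_eq_coe.2
          rw [List.cons_append]
          exact List.perm_middle.symm)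
      rw [this, Bool.or_true]

theorem bc_complete (m : ℕ) (hm0 : 0 < m) : ∀ (fuel : ℕ) (items caps : List ℕ) (slack : ℕ),
    items.length ≤ fuel → (∀ y ∈ items, m ≤ y) → FitsM items (caps : Multiset ℕ) →
    caps.sum ≤ items.sum + slack → bc m fuel items caps slack = true
  | _, [], _, _, _, _, _, _ => by unfold bc; rfl
  | 0, _ :: _, _, _, h, _, _, _ => by simp at h
  | fuel + 1, x :: rest, caps, slack, hlen, hm, hfit, hsl => by
    unfold bc
    obtain ⟨P0, hP0⟩ := FitsM.exists_part _ _ hfit
    have hx0 : x ∈ (P0.map Prod.snd).sum := by rw [hP0.2.1]; simp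
    obtain ⟨b0, hb0, hxb0⟩ := Multiset.mem_join.1 hx0
    obtain ⟨p0, hp0, rfl⟩ := Multiset.mem_map.1 hb0
    obtain ⟨P, p, hP, hp, hx, hD⟩ := exists_dom x _ _ (fun u hu => by
      have := hm u (Multiset.mem_coe.1 hu); omega) _ P0 p0 hP0 hp0 hxb0 (le_refl _)
    obtain ⟨a1, a2, a3⟩ := hP
    have hple := a3 p hp
    have hxsum : x + (p.2.erase x).sum = p.2.sum := Multiset.sum_erase hx
    have hcmem : p.1 ∈ caps := by
      have : p.1 ∈ P.map Prod.fst := Multiset.mem_map_of_mem _ hp
      rw [a1] at this
      exact Multiset.mem_coe.1 this
    have hPe : P = p ::ₘ P.erase p := (Multiset.cons_erase hp).symm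
    have hRS : ((P.erase p).map Prod.snd).sum + p.2.erase x = (rest : Multiset ℕ) := by
      have h1 : p.2 + ((P.erase p).map Prod.snd).sum = x ::ₘ (rest : Multiset ℕ) := by
        rw [← Multiset.sum_cons, ← Multiset.map_cons Prod.snd, Multiset.cons_erase hp, a2]
        rfl
      rw [← Multiset.cons_erase hx, Multiset.cons_add] at h1
      rw [add_comm]
      exact (Multiset.cons_inj_right x).1 h1
    have hcaps : ((([] : List ℕ) ++ caps : List ℕ) : Multiset ℕ)
        = p.1 ::ₘ ((P.erase p).map Prod.fst) := by
      rw [List.nil_append, ← a1, ← Multiset.map_cons Prod.fst, Multiset.cons_erase hp]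
    refine tryCaps_true m x slack p.1 rest (bc m fuel) (by omega) _ ?_ caps [] hcmem (by simp) hcaps
    intro others hoth
    apply fill_true m rest _ [] (p.1 - x) 0 (p.2.erase x) _ hRS (by omega)
      (fun y hy => hm y (List.mem_cons_of_mem _ hy)) (by
        intro h0
        have : (0 : ℕ) ∈ (rest : Multiset ℕ) := by
          rw [← hRS]; exact Multiset.mem_add.2 (Or.inr h0)
        have := hm 0 (List.mem_cons_of_mem _ (Multiset.mem_coe.1 this))
        omega)
    intro r b hr hb
    have hfree : p.1 - x - (p.2.erase x).sum = p.1 - p.2.sum := by omega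
    rw [hfree]
    have hpart : IsPart (P.erase p) (r : Multiset ℕ) (others : Multiset ℕ) :=
      ⟨hoth.symm, hr.symm, fun q hq => a3 q (Multiset.mem_of_mem_erase hq)⟩
    have hfits : FitsM r (others : Multiset ℕ) := fitsM_of_part r _ _ hpart
    have hsle := FitsM.sum_le r _ hfits
    have hrsum : r.sum + (p.2.erase x).sum = rest.sum := by
      have := congrArg Multiset.sum hRS
      rw [Multiset.sum_add, ← hr] at this
      simpa using this
    have hcsum : caps.sum = p.1 + others.sum := by
      have := congrArg Multiset.sum hcaps
      rw [Multiset.sum_cons, ← hoth] at this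
      simpa using this
    have hsle' : r.sum ≤ others.sum := by simpa using hsle
    simp only [List.sum_cons] at hsl
    have h1 : Nat.ble (p.1 - p.2.sum) slack = true := ble_true (by omega)
    have h2 : domOK (p.1 - p.2.sum) b r = true := by
      unfold domOK
      rw [List.all_eq_true]
      intro u hu
      have hu' : u ∈ ((P.erase p).map Prod.snd).sum := by
        rw [← hr]; exact Multiset.mem_coe.2 hu
      obtain ⟨d1, d2⟩ := hD u hu'
      rw [Bool.and_eq_true, List.all_eq_true]
      refine ⟨blt_true d1, fun w hw => ?_⟩
      have hw' : w ∈ p.2.erase x := by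
        have : w ∈ (b : Multiset ℕ) := Multiset.mem_coe.2 hw
        rw [hb] at this
        simpa using this
      rw [Bool.or_eq_true]
      rcases d2 w hw' with h | h
      · exact Or.inl (ble_true h)
      · exact Or.inr (blt_true h)
    have h3 : bc m fuel r others (slack - (p.1 - p.2.sum)) = true := by
      apply bc_complete m hm0 fuel r others _ _ _ hfits (by omega)
      · have hc := congrArg Multiset.card hRS
        rw [Multiset.card_add, ← hr] at hc
        simp only [Multiset.coe_card] at hc
        simp only [List.length_cons] at hlen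
        omega
      · intro y hy
        apply hm y
        apply List.mem_cons_of_mem
        have : y ∈ (rest : Multiset ℕ) := by
          rw [← hRS, ← hr]
          exact Multiset.mem_add.2 (Or.inl (Multiset.mem_coe.2 hy))
        exact Multiset.mem_coe.1 this
    rw [h1, h2, h3]
    rfl

theorem not_fits_of_bc (m fuel : ℕ) (items caps : List ℕ) (hm0 : 0 < m)
    (hlen : items.length ≤ fuel) (hm : ∀ y ∈ items, m ≤ y)
    (h : bc m fuel items caps (caps.sum - items.sum) = false) :
    ¬ FitsM items (caps : Multiset ℕ) := by
  intro hf
  have := bc_complete m hm0 fuel items caps (caps.sum - items.sum) hlen hm hf (by omega)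
  rw [h] at this
  exact Bool.false_ne_true this

end Vale.Agent.Lib.P302
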