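import Vale.Agent.Lib.P302.Hole

/-!
# Splitting the exhaustive search into independent pieces

`frontier m pre S` lists the states of the search after the items `pre` have been placed.  The
search fails iff it fails from every state of the frontier, so that a long search can be verified
in several independent chunks.
-/

namespace Vale.Agent.Lib.P302

/-- The successor states belonging to `body`. -/
def expandBody (m x slack c : ℕ) (rest : List ℕ) : List (List ℕ × ℕ) :=
  if m ≤ c - x then [((c - x) :: rest, slack)]
  else if Nat.ble (c - x) slack = true then [(rest, slack - (c - x))] else []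

/-- The successor states belonging to `tryBins`. -/
def expandBins (m x slack : ℕ) : List ℕ → List ℕ → List (List ℕ × ℕ)
  | _, [] => []
  | pre, c :: post =>
    (if (Nat.ble x c && !(pre.elem c)) = true then expandBody m x slack c (pre ++ post) else [])
      ++ expandBins m x slack (c :: pre) post

theorem body_eq_any (m x : ℕ) (k : List ℕ → ℕ → Bool) (slack c : ℕ) (rest : List ℕ) :
    body m x k slack c rest = (expandBody m x slack c rest).any (fun p => k p.1 p.2) := by
  unfold body expandBody
  split_ifs with h1 h2
  · simp
  · simp [h2]
  · have h3 : Nat.ble (c - x) slack = false := Bool.eq_false_iff.2 h2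
    simp [h3]

theorem tryBins_eq_any (m x : ℕ) (k : List ℕ → ℕ → Bool) (slack : ℕ) :
    ∀ post pre : List ℕ, tryBins m x k slack pre post
      = (expandBins m x slack pre post).any (fun p => k p.1 p.2)
  | [], _ => rfl
  | c :: post, pre => by
    unfold tryBins expandBins
    rw [List.any_append, tryBins_eq_any m x k slack post (c :: pre), body_eq_any]
    congr 1
    split_ifs with h
    · rw [Bool.and_eq_true] at h
      rw [h.1, h.2]
      simp
    · rcases hb : Nat.ble x c with _ | _
      · simp
      · rw [hb] at h
        have h2 : (!(pre.elem c)) = false := by simpa using h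
        rw [h2]
        simp

/-- The states of the search after the items of the first list have been placed, starting from
the states `S`. -/
def frontier (m : ℕ) : List ℕ → List (List ℕ × ℕ) → List (List ℕ × ℕ)
  | [], S => S
  | x :: xs, S => frontier m xs (S.flatMap fun p => expandBins m x p.2 [] p.1)

theorem any_search_eq_frontier (m : ℕ) (rest : List ℕ) : ∀ (pre : List ℕ) (S : List (List ℕ × ℕ)),
    S.any (fun p => search m (pre ++ rest) p.1 p.2)
      = (frontier m pre S).any (fun p => search m rest p.1 p.2)
  | [], _ => rfl
  | x :: xs, S => by
    unfold frontier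
    rw [← any_search_eq_frontier m rest xs, List.any_flatMap]
    congr 1
    funext p
    rw [List.cons_append]
    exact tryBins_eq_any m x (search m (xs ++ rest)) p.2 p.1 []

/-- `F` is covered by consecutive chunks of the given lengths, starting at position `a`, and the
Boolean predicate `p` holds on each chunk. -/
def chunksFrom {α : Type} (p : α → Bool) (F : List α) : ℕ → List ℕ → Prop
  | a, [] => F.length ≤ a
  | a, l :: ls => ((F.drop a).take l).all p = true ∧ chunksFrom p F (a + l) ls

theorem all_drop_of_chunksFrom {α : Type} (p : α → Bool) (F : List α) : ∀ (ls : List ℕ) (a : ℕ),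
    chunksFrom p F a ls → (F.drop a).all p = true
  | [], a, h => by
    have h' : F.length ≤ a := h
    rw [List.drop_eq_nil_of_le h']
    rfl
  | l :: ls, a, h => by
    obtain ⟨h1, h2⟩ := h
    have h3 := all_drop_of_chunksFrom p F ls (a + l) h2
    rw [← List.take_append_drop l (F.drop a), List.all_append, h1, List.drop_drop, h3]
    rfl

theorem search_false_of_chunks (m d : ℕ) (A caps : List ℕ) (slack : ℕ) (ls : List ℕ)
    (h : chunksFrom (fun p => !search m (A.drop d) p.1 p.2)
      (frontier m (A.take d) [(caps, slack)]) 0 ls) :
    search m A caps slack = false := by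
  have h1 := all_drop_of_chunksFrom _ _ ls 0 h
  rw [List.drop_zero] at h1
  have h2 := any_search_eq_frontier m (A.drop d) (A.take d) [(caps, slack)]
  rw [List.take_append_drop] at h2
  have h3 : (frontier m (A.take d) [(caps, slack)]).any (fun p => search m (A.drop d) p.1 p.2)
      = false := by
    rw [List.any_eq_false]
    intro p hp
    have := List.all_eq_true.1 h1 p hp
    simpa using this
  rw [h3] at h2
  simpa using h2

/-- The cheap part of `checkGapHole`: everything except the long search. -/
def checkGapHoleSmall (L D β m : ℕ) (hs ps A : List ℕ) (cert : List (List ℕ × ℕ)) : Bool :=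
  Nat.blt 0 D && Nat.blt 0 L && (hs ++ (ps ++ A)).all (fun y => Nat.blt 0 y && Nat.ble y L) &&
    checkCert L D (hs ++ (ps ++ A)) cert &&
    (Nat.blt 0 m && hs.all (fun h => Nat.blt L (2 * h)) && A.all (fun a => Nat.ble m a) &&
    hs.all (fun h => Nat.blt L (m + h)) && ps.all (fun q => Nat.ble β q) &&
    !(search β ps (hs.map (L - ·)) ((hs.map (L - ·)).sum - ps.sum)))

theorem checkGapHole_of_parts (L D K β m : ℕ) (hs ps A : List ℕ) (cert : List (List ℕ × ℕ))
    (h1 : checkGapHoleSmall L D β m hs ps A cert = true)
    (h2 : search m A ((L - β) :: List.replicate K L) ((L - β) + K * L - A.sum) = false) :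
    checkGapHole L D K β m hs ps A cert = true := by
  unfold checkGapHoleSmall at h1
  unfold checkGapHole checkHole
  rw [h2]
  rw [Bool.and_eq_true] at h1 ⊢
  refine ⟨h1.1, ?_⟩
  rw [Bool.and_eq_true]
  exact ⟨h1.2, rfl⟩

end Vale.Agent.Lib.P302
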