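import Vale.Agent.Lib.P302.Dom
import Vale.Agent.Lib.P302.Split

/-!
# Splitting the bin completion search, and the resulting gap checker

`frontB m d S` lists the states of the search `bc` after `d` bins have been completed, so that a
long search can be verified in independent chunks.
-/

namespace Vale.Agent.Lib.P302

/-- The leaves enumerated by `fill`: (unused items, chosen items, free space). -/
def fillL (m : ℕ) : List ℕ → List ℕ → ℕ → ℕ → List (List ℕ × List ℕ × ℕ)
  | [], bin, free, _ => [([], bin, free)]
  | y :: ys, bin, free, last =>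
    cond (Nat.blt free m) [(y :: ys, bin, free)]
      ((cond (Nat.ble y free && !(Nat.beq y last)) (fillL m ys (y :: bin) (free - y) last) []) ++
        (fillL m ys bin free y).map fun t => (y :: t.1, t.2))

theorem fill_eq_any (m : ℕ) : ∀ (ys : List ℕ) (k : List ℕ → List ℕ → ℕ → Bool) (bin : List ℕ)
    (free last : ℕ),
    fill m k ys bin free last = (fillL m ys bin free last).any fun t => k t.1 t.2.1 t.2.2
  | [], k, bin, free, last => by simp [fill, fillL]
  | y :: ys, k, bin, free, last => by
    unfold fill fillL
    rcases Nat.blt free m with _ | _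
    · rw [cond_false, cond_false, List.any_append, List.any_map,
        fill_eq_any m ys k (y :: bin) (free - y) last,
        fill_eq_any m ys (fun r b f => k (y :: r) b f) bin free y]
      rcases Nat.ble y free with _ | _
      · simp [Function.comp_def]
      · rcases Nat.beq y last with _ | _
        · simp [Function.comp_def]
        · simp [Function.comp_def]
    · simp

/-- The successor states enumerated by `tryCaps`: (items, bins, slack). -/
def expandCaps (m x slack : ℕ) (rest : List ℕ) :
    List ℕ → List ℕ → List (List ℕ × List ℕ × ℕ)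
  | _, [] => []
  | pre, c :: post =>
    (cond (Nat.ble x c && !(pre.elem c))
      (((fillL m rest [] (c - x) 0).filter fun t =>
          Nat.ble t.2.2 slack && domOK t.2.2 t.2.1 t.1).map
        fun t => (t.1, pre ++ post, slack - t.2.2)) [])
      ++ expandCaps m x slack rest (c :: pre) post

theorem tryCaps_eq_any (m x slack : ℕ) (rest : List ℕ) (rc : List ℕ → List ℕ → ℕ → Bool) :
    ∀ post pre : List ℕ, tryCaps m x slack rest rc pre post
      = (expandCaps m x slack rest pre post).any fun s => rc s.1 s.2.1 s.2.2
  | [], _ => rfl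
  | c :: post, pre => by
    unfold tryCaps expandCaps
    rw [List.any_append, tryCaps_eq_any m x slack rest rc post (c :: pre), fill_eq_any]
    congr 1
    rcases Nat.ble x c with _ | _
    · simp
    · rcases pre.elem c with _ | _
      · simp only [Bool.not_false, Bool.and_self, Bool.true_and, cond_true, List.any_map,
          List.any_filter]
        congr 1
        funext t
        simp [Bool.and_assoc]
      · simp

/-- The successor states of a state (items, bins, slack). -/
def expandState (m : ℕ) (s : List ℕ × List ℕ × ℕ) : List (List ℕ × List ℕ × ℕ) :=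
  match s.1 with
  | [] => [s]
  | x :: rest => expandCaps m x s.2.2 rest [] s.2.1

theorem bc_nil (m fuel : ℕ) (caps : List ℕ) (slack : ℕ) : bc m fuel [] caps slack = true := by
  cases fuel <;> rfl

theorem bc_succ_eq (m fuel : ℕ) (s : List ℕ × List ℕ × ℕ) :
    bc m (fuel + 1) s.1 s.2.1 s.2.2 = (expandState m s).any fun t => bc m fuel t.1 t.2.1 t.2.2 := by
  obtain ⟨items, caps, slack⟩ := s
  cases items with
  | nil => simp [expandState, bc_nil]
  | cons x rest =>
    show tryCaps m x slack rest (bc m fuel) [] caps = _
    rw [tryCaps_eq_any]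
    rfl

/-- The states of the search after `d` bins have been completed. -/
def frontB (m : ℕ) : ℕ → List (List ℕ × List ℕ × ℕ) → List (List ℕ × List ℕ × ℕ)
  | 0, S => S
  | d + 1, S => frontB m d (S.flatMap (expandState m))

theorem any_bc_front (m fuel : ℕ) : ∀ (d : ℕ) (S : List (List ℕ × List ℕ × ℕ)),
    (S.any fun t => bc m (fuel + d) t.1 t.2.1 t.2.2)
      = (frontB m d S).any fun t => bc m fuel t.1 t.2.1 t.2.2
  | 0, _ => rfl
  | d + 1, S => by
    unfold frontB
    rw [← any_bc_front m fuel d, List.any_flatMap]
    congr 1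
    funext s
    exact bc_succ_eq m (fuel + d) s

theorem bc_false_of_chunks (m fuel d : ℕ) (items caps : List ℕ) (slack : ℕ) (ls : List ℕ)
    (h : chunksFrom (fun t => !bc m fuel t.1 t.2.1 t.2.2) (frontB m d [(items, caps, slack)]) 0 ls) :
    bc m (fuel + d) items caps slack = false := by
  have h1 := all_drop_of_chunksFrom _ _ ls 0 h
  rw [List.drop_zero] at h1
  have h2 := any_bc_front m fuel d [(items, caps, slack)]
  have h3 : ((frontB m d [(items, caps, slack)]).any fun t => bc m fuel t.1 t.2.1 t.2.2)
      = false := by
    rw [List.any_eq_false]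
    intro p hp
    have := List.all_eq_true.1 h1 p hp
    simpa using this
  rw [h3] at h2
  simpa using h2

/-! ## The gap checker -/

/-- The cheap checks for a gap instance `hs ++ (ps ++ A)` built with the hole lemma: validity of
the sizes, the fractional solution `cert` (weights with denominator `D`), and the hypotheses of
the hole lemma apart from the long search. -/
def checkGapDomSmall (L D β : ℕ) (hs ps A : List ℕ) (cert : List (List ℕ × ℕ)) : Bool :=
  Nat.blt 0 D && Nat.blt 0 L && Nat.blt 0 β &&
    (hs ++ (ps ++ A)).all (fun y => Nat.blt 0 y && Nat.ble y L) &&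
    checkCert L D (hs ++ (ps ++ A)) cert &&
    hs.all (fun h => Nat.blt L (2 * h)) && A.all (fun a => Nat.ble β a) &&
    A.all (fun a => hs.all fun h => Nat.blt L (a + h)) && ps.all (fun q => Nat.ble β q) &&
    !(search β ps (hs.map (L - ·)) ((hs.map (L - ·)).sum - ps.sum))

theorem gap_of_dom (L D K β fuel : ℕ) (hs ps A : List ℕ) (cert : List (List ℕ × ℕ))
    (h : checkGapDomSmall L D β hs ps A cert = true) (hfuel : A.length + 1 ≤ fuel)
    (hbc : bc β fuel (A ++ [β]) (List.replicate K L)
      ((List.replicate K L).sum - (A ++ [β]).sum) = false) :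
    (∀ x ∈ inst L (hs ++ (ps ++ A)), 0 < x ∧ x ≤ 1) ∧
      ((K + hs.length : ℕ) : ℝ) + 1 - ((cert.map fun pw => pw.2).sum : ℕ) / (D : ℝ)
        ≤ (OPT (inst L (hs ++ (ps ++ A))) : ℝ) - LP (inst L (hs ++ (ps ++ A))) := by
  unfold checkGapDomSmall at h
  simp only [Bool.and_eq_true, Nat.blt_eq, List.all_eq_true, Nat.ble_eq, Bool.not_eq_true'] at h
  obtain ⟨⟨⟨⟨⟨⟨⟨⟨⟨hD, hL⟩, hβ0⟩, hl⟩, hcert⟩, hh⟩, hA⟩, hAh⟩, hβ⟩, hs1⟩ := h
  have hv := inst_valid L _ hl
  refine ⟨hv, ?_⟩
  have hnp : ¬ Packable (inst L (hs ++ (ps ++ A))) (K + hs.length) := by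
    intro hp
    have hLq : (0 : ℚ) < L := by exact_mod_cast hL
    have h1 : PackQ ((hs ++ (ps ++ A)).map (fun x : ℕ => (x : ℚ) / L))
        (fun _ : Fin (K + hs.length) => ((L : ℕ) : ℚ) / L) := by
      obtain ⟨f, hf⟩ := hp
      refine ⟨f, fun j => ?_⟩
      rw [div_self hLq.ne']
      exact hf j
    have h2 := fits_of_packQ L hL _ (fun _ : Fin (K + hs.length) => L) h1
    have h3 : (Finset.univ.val.map (fun _ : Fin (K + hs.length) => L))
        = Multiset.replicate (K + hs.length) L := by
      rw [Multiset.map_const']
      simp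
    rw [h3] at h2
    refine not_fits_hole L K β hs ps A (pairwise_of_all L hs hh) hAh ?_ hβ ?_ ?_ h2
    · intro a ha
      have := hA a ha
      omega
    · intro hf
      have := search_complete β ps (hs.map (L - ·)) ((hs.map (L - ·)).sum - ps.sum) hβ hf
        (by omega)
      rw [hs1] at this
      exact Bool.false_ne_true this
    · intro hf
      have hf' : FitsM (A ++ [β]) ((List.replicate K L : List ℕ) : Multiset ℕ) := by
        rw [Multiset.coe_replicate]
        exact FitsM.perm hf (by
          have : (β :: A).Perm (A ++ [β]) := by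
            simpa using (List.perm_append_comm (l₁ := [β]) (l₂ := A))
          exact this)
      refine not_fits_of_bc β fuel (A ++ [β]) (List.replicate K L) hβ0 (by simpa using hfuel) ?_
        hbc hf'
      intro y hy
      rcases List.mem_append.1 hy with hy | hy
      · exact hA y hy
      · simp at hy
        omega
  have h2 := succ_le_OPT _ (fun x hx => (hv x hx).2) _ hnp
  have h3 := LP_le_of_cert L D hL hD _ cert hcert
  have h2' : ((K + hs.length : ℕ) : ℝ) + 1 ≤ (OPT (inst L (hs ++ (ps ++ A))) : ℝ) := by
    exact_mod_cast h2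
  linarith

end Vale.Agent.Lib.P302
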