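import Vale.Agent.Lib.P302.Hole

/-!
# The gadget split lemma

The gadget items `G` all have size at least `g > L / 4`, and three of them fill a bin so that
nothing else fits.  At most `τ` bins can contain three gadget items.  Removing the gadget items
(shrunk to `g`) leaves a packing of the other items `ys` into bins of reduced capacities.
-/

namespace Vale.Agent.Lib.P302

open Multiset

theorem FitsM.split_part (ys : List ℕ) : ∀ (xs : List ℕ) (caps : Multiset ℕ),
    FitsM (xs ++ ys) caps →
      ∃ P : Multiset (ℕ × Multiset ℕ), IsPart P (xs : Multiset ℕ) caps ∧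
        FitsM ys (P.map fun p => p.1 - p.2.sum)
  | [], caps, h => by
    refine ⟨caps.map fun c => (c, 0), ⟨?_, ?_, ?_⟩, ?_⟩
    · simp [Multiset.map_map]
    · rw [Multiset.map_map]
      simp
    · intro p hp
      obtain ⟨c, -, rfl⟩ := Multiset.mem_map.1 hp
      simp
    · have e : ((caps.map fun c => (c, (0 : Multiset ℕ))).map fun p => p.1 - p.2.sum) = caps := by
        rw [Multiset.map_map]
        simp [Function.comp_def]
      rw [e]
      exact h
  | x :: xs, caps, h => by
    rw [List.cons_append] at h
    obtain ⟨c, hc, hxc, h⟩ := h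
    obtain ⟨P, ⟨h1, h2, h3⟩, h4⟩ := FitsM.split_part ys xs _ h
    have hmem : c - x ∈ P.map Prod.fst := by rw [h1]; exact Multiset.mem_cons_self _ _
    obtain ⟨p, hp, hpc⟩ := Multiset.mem_map.1 hmem
    refine ⟨(c, x ::ₘ p.2) ::ₘ P.erase p, ⟨?_, ?_, ?_⟩, ?_⟩
    · rw [Multiset.map_cons, Multiset.map_erase_of_mem _ _ hp, h1, hpc, Multiset.erase_cons_head]
      exact Multiset.cons_erase hc
    · rw [Multiset.map_cons, Multiset.sum_cons]
      have h5 : p.2 + ((P.erase p).map Prod.snd).sum = (xs : Multiset ℕ) := by
        rw [← h2, ← Multiset.sum_cons, ← Multiset.map_cons Prod.snd, Multiset.cons_erase hp]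
      show x ::ₘ p.2 + _ = _
      rw [Multiset.cons_add, h5]
      rfl
    · intro q hq
      rcases Multiset.mem_cons.1 hq with rfl | hq
      · have := h3 p hp
        simp only [Multiset.sum_cons]
        omega
      · exact h3 q (Multiset.mem_of_mem_erase hq)
    · have h6 : (((c, x ::ₘ p.2) ::ₘ P.erase p).map fun p => p.1 - p.2.sum)
          = P.map fun p => p.1 - p.2.sum := by
        conv_rhs => rw [← Multiset.cons_erase hp]
        rw [Multiset.map_cons, Multiset.map_cons]
        congr 1
        simp only [Multiset.sum_cons]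
        omega
      rw [h6]
      exact h4

theorem FitsM.map_mono {α : Type} (ys : List ℕ) (f f' : α → ℕ) (P : Multiset α) :
    ∀ S : Multiset ℕ, (∀ p ∈ P, f p ≤ f' p) → FitsM ys (P.map f + S) →
      FitsM ys (P.map f' + S) := by
  induction P using Multiset.induction_on with
  | empty => intro S _ h; simpa using h
  | cons p P ih =>
    intro S hle h
    rw [Multiset.map_cons, Multiset.cons_add] at h
    have h1 := FitsM.cap_mono ys (f p) (f' p) _ (hle p (Multiset.mem_cons_self _ _)) h
    rw [← Multiset.add_cons] at h1
    have h2 := ih (f' p ::ₘ S) (fun q hq => hle q (Multiset.mem_cons_of_mem hq)) h1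
    rw [Multiset.map_cons, Multiset.cons_add, ← Multiset.add_cons]
    exact h2

theorem card_sum_eq (Q : Multiset (Multiset ℕ)) : card Q.sum = (Q.map card).sum := by
  induction Q using Multiset.induction_on with
  | empty => simp
  | cons b Q ih => simp [ih]

theorem decomp_le_three (C : Multiset ℕ) (h : ∀ c ∈ C, c ≤ 3) :
    C = Multiset.replicate (C.count 3) 3 + Multiset.replicate (C.count 2) 2
      + Multiset.replicate (C.count 1) 1 + Multiset.replicate (C.count 0) 0 := by
  ext a
  simp only [Multiset.count_add, Multiset.count_replicate]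
  by_cases ha : a ∈ C
  · have := h a ha
    interval_cases a <;> simp
  · rw [Multiset.count_eq_zero_of_notMem ha]
    have h0 : C.count 0 = 0 ∨ a ≠ 0 := by
      by_cases e : a = 0
      · subst e; exact Or.inl (Multiset.count_eq_zero_of_notMem ha)
      · exact Or.inr e
    have h1 : C.count 1 = 0 ∨ a ≠ 1 := by
      by_cases e : a = 1
      · subst e; exact Or.inl (Multiset.count_eq_zero_of_notMem ha)
      · exact Or.inr e
    have h2 : C.count 2 = 0 ∨ a ≠ 2 := by
      by_cases e : a = 2
      · subst e; exact Or.inl (Multiset.count_eq_zero_of_notMem ha)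
      · exact Or.inr e
    have h3 : C.count 3 = 0 ∨ a ≠ 3 := by
      by_cases e : a = 3
      · subst e; exact Or.inl (Multiset.count_eq_zero_of_notMem ha)
      · exact Or.inr e
    split_ifs <;> omega

theorem not_fits_gadget (L K g τ : ℕ) (G ys : List ℕ)
    (hGs : G.Pairwise (· ≤ ·)) (hg : ∀ x ∈ G, g ≤ x) (h4 : L < 4 * g)
    (hy : ∀ y ∈ ys, L < 3 * g + y) (hy0 : ∀ y ∈ ys, 0 < y)
    (H1 : ¬ FitsM (G.take (3 * (τ + 1))) (Multiset.replicate (τ + 1) L))
    (H2 : ∀ j b2 b1 b0 : ℕ, j ≤ τ → 3 * j + 2 * b2 + b1 = G.length → j + b2 + b1 + b0 = K →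
      ¬ FitsM ys (Multiset.replicate b2 (L - 2 * g) + Multiset.replicate b1 (L - g)
        + Multiset.replicate b0 L)) :
    ¬ FitsM (G ++ ys) (Multiset.replicate K L) := by
  intro hfit
  obtain ⟨P, ⟨h1, h2, h3⟩, hrest⟩ := FitsM.split_part ys G _ hfit
  have hpL : ∀ p ∈ P, p.1 = L := by
    intro p hp
    have hp1 : p.1 ∈ Multiset.replicate K L := by
      rw [← h1]
      exact Multiset.mem_map_of_mem _ hp
    exact Multiset.eq_of_mem_replicate hp1
  set B := P.map Prod.snd with hB
  have hcardB : card B = K := by
    have : card (P.map Prod.fst) = K := by rw [h1]; simp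
    simpa [hB] using this
  have hBL : ∀ b ∈ B, b.sum ≤ L := by
    intro b hb
    obtain ⟨p, hp, rfl⟩ := Multiset.mem_map.1 hb
    rw [← hpL p hp]
    exact h3 p hp
  have hBG : ∀ b ∈ B, b ≤ (G : Multiset ℕ) := by
    intro b hb
    rw [← h2]
    exact Multiset.le_sum_of_mem hb
  have hBg : ∀ b ∈ B, card b * g ≤ b.sum := by
    intro b hb
    have := Multiset.card_nsmul_le_sum (s := b) (a := g)
      (fun x hx => hg x (by simpa using Multiset.mem_of_le (hBG b hb) hx))
    simpa using this
  have hB3 : ∀ b ∈ B, card b ≤ 3 := by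
    intro b hb
    have e1 := hBg b hb
    have e2 := hBL b hb
    by_contra hcon
    have : 4 * g ≤ card b * g := Nat.mul_le_mul_right g (by omega)
    omega
  have hrest2 : FitsM ys (B.map fun b => L - b.sum) := by
    have : (P.map fun p => p.1 - p.2.sum) = B.map fun b => L - b.sum := by
      rw [hB, Multiset.map_map]
      apply Multiset.map_congr rfl
      intro p hp
      simp [hpL p hp]
    rwa [this] at hrest
  have hrest3 : FitsM ys (B.map fun b => L - card b * g) := by
    have := FitsM.map_mono ys (fun b : Multiset ℕ => L - b.sum) (fun b => L - card b * g) B 0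
      (fun b hb => by have := hBg b hb; omega) (by simpa using hrest2)
    simpa using this
  clear_value B
  set C := B.map card with hC
  have hC3 : ∀ c ∈ C, c ≤ 3 := by
    intro c hc
    obtain ⟨b, hb, rfl⟩ := Multiset.mem_map.1 hc
    exact hB3 b hb
  clear_value C
  have hdec := decomp_le_three C hC3
  have hsumC : C.sum = G.length := by
    have : card B.sum = (B.map card).sum := card_sum_eq B
    rw [h2] at this
    simpa [hC] using this.symm
  have hcardC : card C = K := by rw [hC, Multiset.card_map, hcardB]
  have hs := congrArg Multiset.sum hdec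
  have hc := congrArg Multiset.card hdec
  simp only [Multiset.sum_add, Multiset.sum_replicate, Multiset.card_add, Multiset.card_replicate,
    smul_eq_mul] at hs hc
  have hj : C.count 3 ≤ τ := by
    by_contra hcon
    have hcnt : C.count 3 = card (B.filter fun b => card b = 3) := by
      rw [hC, Multiset.count_map]
      congr 1
      apply Multiset.filter_congr
      intro b _
      exact eq_comm
    obtain ⟨Q, hQ, hQc⟩ := exists_le_card (B.filter fun b => card b = 3) (τ + 1) (by omega)
    have hQB : Q ≤ B := le_trans hQ (Multiset.filter_le _ B)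
    have hQ3 : ∀ b ∈ Q, card b = 3 := fun b hb =>
      (Multiset.mem_filter.1 (Multiset.mem_of_le hQ hb)).2
    have hU : Q.sum ≤ (G : Multiset ℕ) := by
      rw [← h2]
      exact sum_le_of_le hQB
    have hUc : card Q.sum = 3 * (τ + 1) := by
      rw [card_sum_eq, Multiset.map_congr rfl (g := fun _ => 3) hQ3, Multiset.map_const',
        Multiset.sum_replicate, hQc, smul_eq_mul, Nat.mul_comm]
    have hfitU : FitsM (Q.sum.sort (· ≤ ·)) (Multiset.replicate (τ + 1) L) := by
      apply fitsM_of_part _ (Q.map fun b => (L, b))
      refine ⟨?_, ?_, ?_⟩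
      · rw [Multiset.map_map]
        simp only [Function.comp_def]
        rw [Multiset.map_const', hQc]
      · rw [Multiset.map_map, Multiset.sort_eq]
        simp
      · intro p hp
        obtain ⟨b, hb, rfl⟩ := Multiset.mem_map.1 hp
        exact hBL b (Multiset.mem_of_le hQB hb)
    have hdom := take_dominated_sort G hGs Q.sum hU
    rw [hUc] at hdom
    exact H1 (FitsM.dominate _ _ _ hdom hfitU)
  have hcaps : (B.map fun b => L - card b * g)
      = Multiset.replicate (C.count 3) (L - 3 * g) + (Multiset.replicate (C.count 2) (L - 2 * g)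
        + Multiset.replicate (C.count 1) (L - g) + Multiset.replicate (C.count 0) L) := by
    have e1 : (B.map fun b => L - card b * g) = C.map fun c => L - c * g := by
      rw [hC, Multiset.map_map]
      rfl
    rw [e1]
    conv_lhs => rw [hdec]
    simp only [Multiset.map_add, Multiset.map_replicate, Nat.one_mul, Nat.zero_mul, Nat.sub_zero,
      add_assoc]
  rw [hcaps] at hrest3
  have hrest4 := FitsM.dropAll ys _ _ (fun c hc y hy' => by
    rw [Multiset.eq_of_mem_replicate hc]
    have := hy y hy'
    have := hy0 y hy'
    omega) hrest3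
  exact H2 (C.count 3) (C.count 2) (C.count 1) (C.count 0) hj (by omega) (by omega) hrest4

end Vale.Agent.Lib.P302
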