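import Vale.Agent.Lib.P302.Gadget
import Vale.Agent.Lib.P302.Split

/-!
# Checker for gap instances built from a frame, a thirds gadget and the pairs gadget
-/

namespace Vale.Agent.Lib.P302

/-- The bin capacities left for the frame when `b2` bins contain two gadget items, `b1` bins one
gadget item and `b0` bins none (every gadget item shrunk to `g`). -/
def cfgCaps (L g b2 b1 b0 : ℕ) : List ℕ :=
  List.replicate b2 (L - 2 * g) ++ (List.replicate b1 (L - g) ++ List.replicate b0 L)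

/-- The search states of a configuration: the piece `β` is put into one bin of each kind. -/
def cfgStates (L g β sumR b2 b1 b0 : ℕ) : List (List ℕ × ℕ) :=
  ((cfgCaps L g b2 b1 b0).dedup.filter (fun c => Nat.ble β c)).map fun c =>
    ((c - β) :: (cfgCaps L g b2 b1 b0).erase c,
      ((c - β) :: (cfgCaps L g b2 b1 b0).erase c).sum - sumR)

/-- All configurations `(b2, b1, b0)`: `j ≤ τ` bins hold three gadget items. -/
def allCfgs (K nG τ : ℕ) : List (ℕ × ℕ × ℕ) :=
  (List.range (τ + 1)).flatMap fun j => (List.range (nG + 1)).flatMap fun b2 =>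
    if 3 * j + 2 * b2 ≤ nG ∧ j + b2 + (nG - 3 * j - 2 * b2) ≤ K then
      [(b2, nG - 3 * j - 2 * b2, K - j - b2 - (nG - 3 * j - 2 * b2))] else []

/-- All search states. -/
def gadgetStates (L K g τ nG β sumR : ℕ) : List (List ℕ × ℕ) :=
  (allCfgs K nG τ).flatMap fun c => cfgStates L g β sumR c.1 c.2.1 c.2.2

theorem mem_allCfgs (K nG τ j b2 b1 b0 : ℕ) (hj : j ≤ τ) (h1 : 3 * j + 2 * b2 + b1 = nG)
    (h2 : j + b2 + b1 + b0 = K) : (b2, b1, b0) ∈ allCfgs K nG τ := by
  unfold allCfgs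
  rw [List.mem_flatMap]
  refine ⟨j, List.mem_range.2 (by omega), ?_⟩
  rw [List.mem_flatMap]
  refine ⟨b2, List.mem_range.2 (by omega), ?_⟩
  rw [if_pos (by omega)]
  have e1 : nG - 3 * j - 2 * b2 = b1 := by omega
  have e2 : K - j - b2 - b1 = b0 := by omega
  rw [e1, e2]
  exact List.mem_singleton.2 rfl

theorem not_fits_cfg (L g β m b2 b1 b0 : ℕ) (R : List ℕ) (hm : ∀ y ∈ R, m ≤ y)
    (h : ∀ p ∈ cfgStates L g β R.sum b2 b1 b0, search m R p.1 p.2 = false) :
    ¬ FitsM (β :: R) (Multiset.replicate b2 (L - 2 * g) + Multiset.replicate b1 (L - g)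
        + Multiset.replicate b0 L) := by
  have hc : (Multiset.replicate b2 (L - 2 * g) + Multiset.replicate b1 (L - g)
      + Multiset.replicate b0 L) = ((cfgCaps L g b2 b1 b0 : List ℕ) : Multiset ℕ) := by
    unfold cfgCaps
    rw [← Multiset.coe_add, ← Multiset.coe_add, Multiset.coe_replicate, Multiset.coe_replicate,
      Multiset.coe_replicate, add_assoc]
  rw [hc]
  rintro ⟨c, hcm, hβ, hf⟩
  have hcm' : c ∈ cfgCaps L g b2 b1 b0 := Multiset.mem_coe.1 hcm
  rw [Multiset.coe_erase, Multiset.cons_coe] at hf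
  have hmem : ((c - β) :: (cfgCaps L g b2 b1 b0).erase c,
      ((c - β) :: (cfgCaps L g b2 b1 b0).erase c).sum - R.sum) ∈ cfgStates L g β R.sum b2 b1 b0 := by
    unfold cfgStates
    refine List.mem_map.2 ⟨c, List.mem_filter.2 ⟨List.mem_dedup.2 hcm', ?_⟩, rfl⟩
    rw [Nat.ble_eq]
    exact hβ
  have h1 := h _ hmem
  have h2 := search_complete m R ((c - β) :: (cfgCaps L g b2 b1 b0).erase c)
    (((c - β) :: (cfgCaps L g b2 b1 b0).erase c).sum - R.sum) hm hf (by omega)
  rw [h1] at h2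
  exact Bool.false_ne_true h2

theorem all_false_of_chunks (m d : ℕ) (R : List ℕ) (S0 : List (List ℕ × ℕ)) (ls : List ℕ)
    (h : chunksFrom (fun p => !search m (R.drop d) p.1 p.2) (frontier m (R.take d) S0) 0 ls) :
    ∀ p ∈ S0, search m R p.1 p.2 = false := by
  have h1 := all_drop_of_chunksFrom _ _ ls 0 h
  rw [List.drop_zero] at h1
  have h2 := any_search_eq_frontier m (R.drop d) (R.take d) S0
  rw [List.take_append_drop] at h2
  have h3 : (frontier m (R.take d) S0).any (fun p => search m (R.drop d) p.1 p.2) = false := by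
    rw [List.any_eq_false]
    intro p hp
    have := List.all_eq_true.1 h1 p hp
    simpa using this
  rw [h3, List.any_eq_false] at h2
  intro p hp
  simpa using h2 p hp

/-- The cheap Boolean checks. -/
def checkGadgetSmall (L D β m g : ℕ) (hs ps G R : List ℕ) (cert : List (List ℕ × ℕ)) : Bool :=
  Nat.blt 0 D && Nat.blt 0 L &&
    (hs ++ (ps ++ (G ++ R))).all (fun y => Nat.blt 0 y && Nat.ble y L) &&
    checkCert L D (hs ++ (ps ++ (G ++ R))) cert &&
    (Nat.blt 0 m && hs.all (fun h => Nat.blt L (2 * h)) && R.all (fun a => Nat.ble m a) &&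
    Nat.ble m g && hs.all (fun h => Nat.blt L (m + h)) && ps.all (fun q => Nat.ble β q) &&
    !(search β ps (hs.map (L - ·)) ((hs.map (L - ·)).sum - ps.sum))) &&
    (decide (G.Pairwise (· ≤ ·)) && G.all (fun x => Nat.ble g x) && Nat.blt L (4 * g) &&
    Nat.blt L (3 * g + β) && Nat.blt L (3 * g + m) && Nat.blt 0 β)

theorem gap_of_gadget_abs (L D K β m g τ : ℕ) (hs ps G R : List ℕ) (cert : List (List ℕ × ℕ))
    (hsmall : checkGadgetSmall L D β m g hs ps G R cert = true)
    (H1 : ¬ FitsM (G.take (3 * (τ + 1))) (Multiset.replicate (τ + 1) L))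
    (H2 : ∀ j b2 b1 b0 : ℕ, j ≤ τ → 3 * j + 2 * b2 + b1 = G.length → j + b2 + b1 + b0 = K + 1 →
      ¬ FitsM (β :: R) (Multiset.replicate b2 (L - 2 * g) + Multiset.replicate b1 (L - g)
        + Multiset.replicate b0 L)) :
    (∀ x ∈ inst L (hs ++ (ps ++ (G ++ R))), 0 < x ∧ x ≤ 1) ∧
      ((K + 1 + hs.length : ℕ) : ℝ) + 1 - ((cert.map fun pw => pw.2).sum : ℕ) / (D : ℝ)
        ≤ (OPT (inst L (hs ++ (ps ++ (G ++ R)))) : ℝ) - LP (inst L (hs ++ (ps ++ (G ++ R)))) := by
  unfold checkGadgetSmall at hsmall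
  simp only [Bool.and_eq_true, Nat.blt_eq, List.all_eq_true, Nat.ble_eq, Bool.not_eq_true',
    decide_eq_true_eq] at hsmall
  obtain ⟨⟨⟨⟨⟨hD, hL⟩, hl⟩, hcert⟩, ⟨⟨⟨⟨⟨⟨hm0, hh⟩, hmR⟩, hmg⟩, hmh⟩, hβ⟩, hs1⟩⟩,
    ⟨⟨⟨⟨⟨hGs, hgG⟩, h4⟩, h3β⟩, h3m⟩, hβ0⟩⟩ := hsmall
  have hv := inst_valid L _ hl
  refine ⟨hv, ?_⟩
  have hmA : ∀ a ∈ G ++ R, m ≤ a := by
    intro a ha
    rcases List.mem_append.1 ha with h | h
    · exact le_trans hmg (hgG a h)
    · exact hmR a h
  have hnp : ¬ Packable (inst L (hs ++ (ps ++ (G ++ R)))) (K + 1 + hs.length) := by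
    intro hp
    have hLq : (0 : ℚ) < L := by exact_mod_cast hL
    have h1 : PackQ ((hs ++ (ps ++ (G ++ R))).map (fun x : ℕ => (x : ℚ) / L))
        (fun _ : Fin (K + 1 + hs.length) => ((L : ℕ) : ℚ) / L) := by
      obtain ⟨f, hf⟩ := hp
      refine ⟨f, fun j => ?_⟩
      rw [div_self hLq.ne']
      exact hf j
    have h2 := fits_of_packQ L hL _ (fun _ : Fin (K + 1 + hs.length) => L) h1
    have h3 : (Finset.univ.val.map (fun _ : Fin (K + 1 + hs.length) => L))
        = Multiset.replicate (K + 1 + hs.length) L := by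
      rw [Multiset.map_const']
      simp
    rw [h3] at h2
    refine not_fits_hole L (K + 1) β hs ps (G ++ R) (pairwise_of_all L hs hh) ?_ ?_ hβ ?_ ?_ h2
    · intro a ha x hx
      have := hmA a ha
      have := hmh x hx
      omega
    · intro a ha
      have := hmA a ha
      omega
    · intro hf
      have := search_complete β ps (hs.map (L - ·)) ((hs.map (L - ·)).sum - ps.sum) hβ hf
        (by omega)
      rw [hs1] at this
      exact Bool.false_ne_true this
    · intro hf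
      have hf' : FitsM (G ++ (β :: R)) (Multiset.replicate (K + 1) L) :=
        FitsM.perm hf (List.perm_middle (l₁ := G) (l₂ := R) (a := β)).symm
      refine not_fits_gadget L (K + 1) g τ G (β :: R) hGs hgG h4 ?_ ?_ H1 H2 hf'
      · intro y hy
        rcases List.mem_cons.1 hy with rfl | hy
        · exact h3β
        · have := hmR y hy
          omega
      · intro y hy
        rcases List.mem_cons.1 hy with rfl | hy
        · exact hβ0
        · have := hmR y hy
          omega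
  have h2 := succ_le_OPT _ (fun x hx => (hv x hx).2) _ hnp
  have h3 := LP_le_of_cert L D hL hD _ cert hcert
  have h2' : ((K + 1 + hs.length : ℕ) : ℝ) + 1 ≤ (OPT (inst L (hs ++ (ps ++ (G ++ R)))) : ℝ) := by
    exact_mod_cast h2
  linarith

theorem checkGadgetSmall_facts (L D β m g : ℕ) (hs ps G R : List ℕ) (cert : List (List ℕ × ℕ))
    (hsmall : checkGadgetSmall L D β m g hs ps G R cert = true) :
    0 < m ∧ (∀ a ∈ R, m ≤ a) ∧ (∀ x ∈ G, g ≤ x) ∧ G.Pairwise (· ≤ ·) ∧ L < 4 * g ∧ m ≤ g := by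
  unfold checkGadgetSmall at hsmall
  simp only [Bool.and_eq_true, Nat.blt_eq, List.all_eq_true, Nat.ble_eq, Bool.not_eq_true',
    decide_eq_true_eq] at hsmall
  obtain ⟨⟨⟨⟨⟨hD, hL⟩, hl⟩, hcert⟩, ⟨⟨⟨⟨⟨⟨hm0, hh⟩, hmR⟩, hmg⟩, hmh⟩, hβ⟩, hs1⟩⟩,
    ⟨⟨⟨⟨⟨hGs, hgG⟩, h4⟩, h3β⟩, h3m⟩, hβ0⟩⟩ := hsmall
  exact ⟨hm0, hmR, hgG, hGs, h4, hmg⟩

theorem gap_of_gadget (L D K β m g τ : ℕ) (hs ps G R : List ℕ) (cert : List (List ℕ × ℕ))
    (hsmall : checkGadgetSmall L D β m g hs ps G R cert = true)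
    (H1 : search g (G.take (3 * (τ + 1))).reverse (List.replicate (τ + 1) L)
      ((τ + 1) * L - (G.take (3 * (τ + 1))).reverse.sum) = false)
    (H2 : ∀ p ∈ gadgetStates L (K + 1) g τ G.length β R.sum, search m R p.1 p.2 = false) :
    (∀ x ∈ inst L (hs ++ (ps ++ (G ++ R))), 0 < x ∧ x ≤ 1) ∧
      ((K + 1 + hs.length : ℕ) : ℝ) + 1 - ((cert.map fun pw => pw.2).sum : ℕ) / (D : ℝ)
        ≤ (OPT (inst L (hs ++ (ps ++ (G ++ R)))) : ℝ) - LP (inst L (hs ++ (ps ++ (G ++ R)))) := by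
  obtain ⟨hm0, hmR, hgG, hGs, h4, hmg⟩ := checkGadgetSmall_facts L D β m g hs ps G R cert hsmall
  refine gap_of_gadget_abs L D K β m g τ hs ps G R cert hsmall ?_ ?_
  · intro hf1
    have hf2 : FitsM (G.take (3 * (τ + 1))).reverse
        ((List.replicate (τ + 1) L : List ℕ) : Multiset ℕ) := by
      rw [Multiset.coe_replicate]
      exact FitsM.perm hf1 (List.reverse_perm _).symm
    have := search_complete g (G.take (3 * (τ + 1))).reverse (List.replicate (τ + 1) L)
      ((τ + 1) * L - (G.take (3 * (τ + 1))).reverse.sum)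
      (fun y hy => hgG y (List.mem_of_mem_take (List.mem_reverse.1 hy))) hf2
      (by simp only [List.sum_replicate, smul_eq_mul]; omega)
    rw [H1] at this
    exact Bool.false_ne_true this
  · intro j b2 b1 b0 hj e1 e2
    apply not_fits_cfg L g β m b2 b1 b0 R hmR
    intro p hp
    apply H2 p
    unfold gadgetStates
    exact List.mem_flatMap.2 ⟨(b2, b1, b0), mem_allCfgs _ _ _ j b2 b1 b0 hj e1 e2, hp⟩

end Vale.Agent.Lib.P302
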