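import Vale.Agent.Lib.P302.DomSplit
import Vale.Agent.Lib.P302.Gadget

/-!
# Gap instances built from a frame, a thirds gadget and the pairs gadget

The ordinary items are `G ++ R`, where the items of the gadget `G` are close to a third of the
bin.  Bins with three gadget items are counted by a small search, the other bins contain at most
two gadget items, which are removed; the remaining configurations are refuted by `bc`.
-/

namespace Vale.Agent.Lib.P302

/-- The capacities left by `b2` bins with two gadget items, `b1` bins with one and `b0` bins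
without gadget items. -/
def cfgCaps (L g b2 b1 b0 : ℕ) : List ℕ :=
  List.replicate b2 (L - 2 * g) ++ (List.replicate b1 (L - g) ++ List.replicate b0 L)

/-- The configuration with `t.1` bins of three gadget items and `t.2` bins of two gadget items is
inconsistent or refuted by the search. -/
def cfgOK (β fuel L g K nG : ℕ) (ys : List ℕ) (t : ℕ × ℕ) : Bool :=
  !(Nat.ble (3 * t.1 + 2 * t.2) nG && Nat.ble (t.1 + t.2 + (nG - 3 * t.1 - 2 * t.2)) K) ||
    !(bc β fuel ys
      (cfgCaps L g t.2 (nG - 3 * t.1 - 2 * t.2) (K - t.1 - t.2 - (nG - 3 * t.1 - 2 * t.2)))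
      ((cfgCaps L g t.2 (nG - 3 * t.1 - 2 * t.2)
        (K - t.1 - t.2 - (nG - 3 * t.1 - 2 * t.2))).sum - ys.sum))

/-- All pairs (number of bins with three gadget items, number of bins with two). -/
def cfgPairs (τ nG : ℕ) : List (ℕ × ℕ) :=
  (List.range (τ + 1)).flatMap fun j => (List.range (nG / 2 + 1)).map fun b2 => (j, b2)

theorem not_fits_of_cfgs (L K g τ β fuel fuel1 : ℕ) (G ys : List ℕ) (hβ0 : 0 < β) (hg0 : 0 < g)
    (hfuel : ys.length ≤ fuel) (hfuel1 : G.length ≤ fuel1) (hm : ∀ y ∈ ys, β ≤ y)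
    (hGs : G.Pairwise (· ≤ ·)) (hg : ∀ x ∈ G, g ≤ x) (h4 : L < 4 * g)
    (hy : ∀ y ∈ ys, L < 3 * g + y)
    (H1 : bc g fuel1 (G.take (3 * (τ + 1))).reverse (List.replicate (τ + 1) L)
      ((List.replicate (τ + 1) L).sum - (G.take (3 * (τ + 1))).reverse.sum) = false)
    (H2 : (cfgPairs τ G.length).all (cfgOK β fuel L g K G.length ys) = true) :
    ¬ FitsM (G ++ ys) (Multiset.replicate K L) := by
  refine not_fits_gadget L K g τ G ys hGs hg h4 hy (fun y hy' => by have := hm y hy'; omega) ?_ ?_
  · intro hf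
    have hf' : FitsM (G.take (3 * (τ + 1))).reverse
        ((List.replicate (τ + 1) L : List ℕ) : Multiset ℕ) := by
      rw [Multiset.coe_replicate]
      exact FitsM.perm hf (List.reverse_perm _).symm
    refine not_fits_of_bc g fuel1 _ _ hg0 ?_ ?_ H1 hf'
    · rw [List.length_reverse]
      exact le_trans (List.length_take_le' _ _) hfuel1
    · intro y hy'
      exact hg y (List.mem_of_mem_take (List.mem_reverse.1 hy'))
  · intro j b2 b1 b0 hj h1 h2 hf
    have hmem : (j, b2) ∈ cfgPairs τ G.length := by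
      unfold cfgPairs
      rw [List.mem_flatMap]
      refine ⟨j, List.mem_range.2 (by omega), ?_⟩
      rw [List.mem_map]
      exact ⟨b2, List.mem_range.2 (by omega), rfl⟩
    have hok := List.all_eq_true.1 H2 _ hmem
    unfold cfgOK at hok
    have e1 : G.length - 3 * j - 2 * b2 = b1 := by omega
    have e0 : K - j - b2 - b1 = b0 := by omega
    simp only [e1, e0] at hok
    have c1 : Nat.ble (3 * j + 2 * b2) G.length = true := ble_true (by omega)
    have c2 : Nat.ble (j + b2 + b1) K = true := ble_true (by omega)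
    rw [c1, c2] at hok
    simp only [Bool.and_self, Bool.not_true, Bool.false_or, Bool.not_eq_true'] at hok
    refine not_fits_of_bc β fuel ys _ hβ0 hfuel hm hok ?_
    unfold cfgCaps
    rw [← Multiset.coe_add, ← Multiset.coe_add, Multiset.coe_replicate, Multiset.coe_replicate,
      Multiset.coe_replicate, ← add_assoc]
    exact hf

theorem gap_of_gadget (L D K β g τ fuel fuel1 : ℕ) (hs ps G R : List ℕ)
    (cert : List (List ℕ × ℕ))
    (h : checkGapDomSmall L D β hs ps (G ++ R) cert = true) (hg0 : 0 < g)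
    (hfuel : R.length + 1 ≤ fuel) (hfuel1 : G.length ≤ fuel1)
    (hGs : G.Pairwise (· ≤ ·)) (hg : ∀ x ∈ G, g ≤ x) (h4 : L < 4 * g)
    (hy : ∀ y ∈ R ++ [β], L < 3 * g + y)
    (H1 : bc g fuel1 (G.take (3 * (τ + 1))).reverse (List.replicate (τ + 1) L)
      ((List.replicate (τ + 1) L).sum - (G.take (3 * (τ + 1))).reverse.sum) = false)
    (H2 : (cfgPairs τ G.length).all (cfgOK β fuel L g K G.length (R ++ [β])) = true) :
    (∀ x ∈ inst L (hs ++ (ps ++ (G ++ R))), 0 < x ∧ x ≤ 1) ∧
      ((K + hs.length : ℕ) : ℝ) + 1 - ((cert.map fun pw => pw.2).sum : ℕ) / (D : ℝ)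
        ≤ (OPT (inst L (hs ++ (ps ++ (G ++ R)))) : ℝ) - LP (inst L (hs ++ (ps ++ (G ++ R)))) := by
  have h' := h
  unfold checkGapDomSmall at h
  simp only [Bool.and_eq_true, Nat.blt_eq, List.all_eq_true, Nat.ble_eq, Bool.not_eq_true'] at h
  obtain ⟨⟨⟨⟨⟨⟨⟨⟨⟨hD, hL⟩, hβ0⟩, hl⟩, hcert⟩, hh⟩, hA⟩, hAh⟩, hβ⟩, hs1⟩ := h
  have hv := inst_valid L _ hl
  refine ⟨hv, ?_⟩
  have hnp : ¬ Packable (inst L (hs ++ (ps ++ (G ++ R)))) (K + hs.length) := by
    intro hp
    have hLq : (0 : ℚ) < L := by exact_mod_cast hL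
    have h1 : PackQ ((hs ++ (ps ++ (G ++ R))).map (fun x : ℕ => (x : ℚ) / L))
        (fun _ : Fin (K + hs.length) => ((L : ℕ) : ℚ) / L) := by
      obtain ⟨f, hf⟩ := hp
      refine ⟨f, fun j => ?_⟩
      rw [div_self hLq.ne']
      exact hf j
    have h2 := fits_of_packQ L hL _ (fun _ : Fin (K + hs.length) => L) h1
    have h3 : (Finset.univ.val.map (fun _ : Fin (K + hs.length) => L))
        = Multiset.replicate (K + hs.length) L := by
      rw [Multiset.map_const']
      simp
    rw [h3] at h2
    refine not_fits_hole L K β hs ps (G ++ R) (pairwise_of_all L hs hh) hAh ?_ hβ ?_ ?_ h2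
    · intro a ha
      have := hA a ha
      omega
    · intro hf
      have := search_complete β ps (hs.map (L - ·)) ((hs.map (L - ·)).sum - ps.sum) hβ hf
        (by omega)
      rw [hs1] at this
      exact Bool.false_ne_true this
    · intro hf
      have hf' : FitsM (G ++ (R ++ [β])) (Multiset.replicate K L) := by
        refine FitsM.perm hf ?_
        have : (β :: (G ++ R)).Perm ((G ++ R) ++ [β]) := by
          simpa using (List.perm_append_comm (l₁ := [β]) (l₂ := G ++ R))
        simpa [List.append_assoc] using this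
      refine not_fits_of_cfgs L K g τ β fuel fuel1 G (R ++ [β]) hβ0 hg0 (by simpa using hfuel)
        hfuel1 ?_ hGs hg h4 hy H1 H2 hf'
      intro y hy'
      rcases List.mem_append.1 hy' with hy' | hy'
      · exact hA y (List.mem_append.2 (Or.inr hy'))
      · simp at hy'
        omega
  have h2 := succ_le_OPT _ (fun x hx => (hv x hx).2) _ hnp
  have h3 := LP_le_of_cert L D hL hD _ cert hcert
  have h2' : ((K + hs.length : ℕ) : ℝ) + 1 ≤ (OPT (inst L (hs ++ (ps ++ (G ++ R)))) : ℝ) := by
    exact_mod_cast h2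
  linarith

end Vale.Agent.Lib.P302
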