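import Vale.Agent.Lib.P302.Counting

/-!
# The hole lemma

An instance consists of huge items `hs` (no two of them fit together), small pieces `ps` and
ordinary items `A` which do not fit next to a huge item.  If the pieces do not all fit into the
holes left by the huge items, and `A` together with one more piece does not fit into `K` bins,
then the whole instance does not fit into `K + hs.length` bins.
-/

namespace Vale.Agent.Lib.P302

open Multiset

theorem FitsM.tail {x : ℕ} {xs : List ℕ} {caps : Multiset ℕ} (h : FitsM (x :: xs) caps) :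
    FitsM xs caps := by
  obtain ⟨c, hc, -, h⟩ := h
  have h' := FitsM.cap_mono xs (c - x) c _ (Nat.sub_le _ _) h
  rwa [Multiset.cons_erase hc] at h'

theorem FitsM.drop_prefix : ∀ (ps xs : List ℕ) (caps : Multiset ℕ), FitsM (ps ++ xs) caps →
    FitsM xs caps
  | [], _, _, h => h
  | _ :: ps, xs, caps, h => FitsM.drop_prefix ps xs caps (FitsM.tail h)

theorem FitsM.dropAll (xs : List ℕ) (C : Multiset ℕ) (H : Multiset ℕ) :
    (∀ c ∈ H, ∀ y ∈ xs, c < y) → FitsM xs (H + C) → FitsM xs C := by
  induction H using Multiset.induction_on with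
  | empty => intro _ h; simpa using h
  | cons d H ih =>
    intro hd h
    rw [Multiset.cons_add] at h
    exact ih (fun c hc => hd c (Multiset.mem_cons_of_mem hc))
      (FitsM.drop d xs _ (hd d (Multiset.mem_cons_self _ _)) h)

theorem hole_split (A : List ℕ) (C : Multiset ℕ) : ∀ (ps : List ℕ) (H : Multiset ℕ),
    (∀ c ∈ H, ∀ a ∈ A, c < a) → FitsM (ps ++ A) (H + C) →
      FitsM ps H ∨ ∃ q ∈ ps, FitsM (q :: A) C
  | [], _, _, _ => Or.inl trivial
  | p :: ps, H, hH, h => by
    rw [List.cons_append] at h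
    obtain ⟨c, hc, hpc, h⟩ := h
    by_cases hcH : c ∈ H
    · rw [Multiset.erase_add_left_pos _ hcH, ← Multiset.cons_add] at h
      have hH' : ∀ d ∈ (c - p) ::ₘ H.erase c, ∀ a ∈ A, d < a := by
        intro d hd a ha
        rcases Multiset.mem_cons.1 hd with rfl | hd
        · have := hH c hcH a ha
          omega
        · exact hH d (Multiset.mem_of_mem_erase hd) a ha
      rcases hole_split A C ps _ hH' h with h' | ⟨q, hq, h'⟩
      · exact Or.inl ⟨c, hcH, hpc, h'⟩
      · exact Or.inr ⟨q, List.mem_cons_of_mem _ hq, h'⟩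
    · have hcC : c ∈ C := (Multiset.mem_add.1 hc).resolve_left hcH
      rw [Multiset.erase_add_right_neg _ hcH] at h
      refine Or.inr ⟨p, List.mem_cons_self, c, hcC, hpc, ?_⟩
      have h1 := FitsM.drop_prefix ps A _ h
      rw [← Multiset.add_cons] at h1
      exact FitsM.dropAll A _ H hH h1

theorem place_huge (L : ℕ) (rest : List ℕ) : ∀ (hs : List ℕ) (H : Multiset ℕ) (k : ℕ),
    (∀ h ∈ hs, ∀ c ∈ H, c < h) → hs.Pairwise (fun h h' => L < h + h') →
    FitsM (hs ++ rest) (H + Multiset.replicate (k + hs.length) L) →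
      FitsM rest (((hs.map (L - ·) : List ℕ) : Multiset ℕ) + H + Multiset.replicate k L)
  | [], H, k, _, _, h => by simpa using h
  | x :: hs, H, k, hH, hp, h => by
    rw [List.cons_append] at h
    obtain ⟨c, hc, hxc, h⟩ := h
    have hcH : c ∉ H := fun hc' => by
      have := hH x List.mem_cons_self c hc'
      omega
    have hcL : c = L := Multiset.eq_of_mem_replicate ((Multiset.mem_add.1 hc).resolve_left hcH)
    subst hcL
    rw [Multiset.erase_add_right_neg _ hcH] at h
    have hrep : (Multiset.replicate (k + (x :: hs).length) c).erase c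
        = Multiset.replicate (k + hs.length) c := by
      have : k + (x :: hs).length = (k + hs.length) + 1 := by simp [Nat.add_assoc]
      rw [this, Multiset.replicate_succ, Multiset.erase_cons_head]
    rw [hrep, ← Multiset.cons_add] at h
    obtain ⟨hp1, hp2⟩ := List.pairwise_cons.1 hp
    have hH' : ∀ h' ∈ hs, ∀ d ∈ (c - x) ::ₘ H, d < h' := by
      intro h' hh' d hd
      rcases Multiset.mem_cons.1 hd with rfl | hd
      · have := hp1 h' hh'
        omega
      · exact hH h' (List.mem_cons_of_mem _ hh') d hd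
    have h2 := place_huge c rest hs _ k hH' hp2 h
    have h3 : ((((x :: hs).map (c - ·) : List ℕ) : Multiset ℕ) + H)
        = (((hs.map (c - ·) : List ℕ) : Multiset ℕ) + (c - x) ::ₘ H) := by
      rw [List.map_cons, ← Multiset.cons_coe, Multiset.cons_add, Multiset.add_cons]
    rw [h3]
    exact h2

theorem forall₂_le_refl : ∀ A : List ℕ, List.Forall₂ (fun y x => y ≤ x) A A
  | [] => List.Forall₂.nil
  | _ :: A => List.Forall₂.cons (le_refl _) (forall₂_le_refl A)

theorem not_fits_hole (L K β : ℕ) (hs ps A : List ℕ)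
    (hh : hs.Pairwise (fun h h' => L < h + h'))
    (hA : ∀ a ∈ A, ∀ h ∈ hs, L < a + h) (hpos : ∀ a ∈ A, 0 < a)
    (hβ : ∀ q ∈ ps, β ≤ q)
    (h1 : ¬ FitsM ps ((hs.map (L - ·) : List ℕ) : Multiset ℕ))
    (h2 : ¬ FitsM (β :: A) (Multiset.replicate K L)) :
    ¬ FitsM (hs ++ (ps ++ A)) (Multiset.replicate (K + hs.length) L) := by
  intro h
  have h3 := place_huge L (ps ++ A) hs 0 K (by simp) hh (by simpa using h)
  rw [add_zero] at h3
  have hH : ∀ c ∈ ((hs.map (L - ·) : List ℕ) : Multiset ℕ), ∀ a ∈ A, c < a := by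
    intro c hc a ha
    obtain ⟨x, hx, rfl⟩ := List.mem_map.1 (Multiset.mem_coe.1 hc)
    have := hA a ha x hx
    have := hpos a ha
    omega
  rcases hole_split A _ ps _ hH h3 with h4 | ⟨q, hq, h4⟩
  · exact h1 h4
  · exact h2 (FitsM.dominate (β :: A) (q :: A) _
      (List.Forall₂.cons (hβ q hq) (forall₂_le_refl A)) h4)

/-- Boolean check of the hypotheses of the hole lemma.  `m` is a lower bound for the items of
`A`, `β` a lower bound for the pieces. -/
def checkHole (L K β m : ℕ) (hs ps A : List ℕ) : Bool :=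
  Nat.blt 0 m && hs.all (fun h => Nat.blt L (2 * h)) && A.all (fun a => Nat.ble m a) &&
    hs.all (fun h => Nat.blt L (m + h)) && ps.all (fun q => Nat.ble β q) &&
    !(search β ps (hs.map (L - ·)) ((hs.map (L - ·)).sum - ps.sum)) &&
    !(search m A ((L - β) :: List.replicate K L) ((L - β) + K * L - A.sum))

theorem pairwise_of_all (L : ℕ) : ∀ hs : List ℕ, (∀ h ∈ hs, L < 2 * h) →
    hs.Pairwise (fun h h' => L < h + h')
  | [], _ => List.Pairwise.nil
  | x :: hs, h => by
    refine List.pairwise_cons.2 ⟨fun y hy => ?_, pairwise_of_all L hs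
      (fun z hz => h z (List.mem_cons_of_mem _ hz))⟩
    have h1 := h x List.mem_cons_self
    have h2 := h y (List.mem_cons_of_mem _ hy)
    omega

/-- The hole lemma as a checker: the instance `hs ++ (ps ++ A)` cannot be packed into
`K + 1 + hs.length` bins. -/
theorem not_packable_of_checkHole (L K β m : ℕ) (hs ps A : List ℕ) (hL : 0 < L)
    (h : checkHole L K β m hs ps A = true) :
    ¬ Packable (inst L (hs ++ (ps ++ A))) (K + 1 + hs.length) := by
  unfold checkHole at h
  simp only [Bool.and_eq_true, Nat.blt_eq, List.all_eq_true, Nat.ble_eq, Bool.not_eq_true'] at h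
  obtain ⟨⟨⟨⟨⟨⟨hm0, hh⟩, hm⟩, hmh⟩, hβ⟩, hs1⟩, hs2⟩ := h
  intro hp
  have hLq : (0 : ℚ) < L := by exact_mod_cast hL
  have h1 : PackQ ((hs ++ (ps ++ A)).map (fun x : ℕ => (x : ℚ) / L))
      (fun _ : Fin (K + 1 + hs.length) => ((L : ℕ) : ℚ) / L) := by
    obtain ⟨f, hf⟩ := hp
    refine ⟨f, fun j => ?_⟩
    rw [div_self hLq.ne']
    exact hf j
  have h2 := fits_of_packQ L hL _ (fun _ : Fin (K + 1 + hs.length) => L) h1
  have h3 : (Finset.univ.val.map (fun _ : Fin (K + 1 + hs.length) => L))
      = Multiset.replicate (K + 1 + hs.length) L := by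
    rw [Multiset.map_const']
    simp
  rw [h3] at h2
  refine not_fits_hole L (K + 1) β hs ps A (pairwise_of_all L hs hh) ?_ ?_ hβ ?_ ?_ h2
  · intro a ha x hx
    have := hm a ha
    have := hmh x hx
    omega
  · intro a ha
    have := hm a ha
    omega
  · intro hf
    have := search_complete β ps (hs.map (L - ·)) ((hs.map (L - ·)).sum - ps.sum) hβ hf
      (by omega)
    rw [hs1] at this
    exact Bool.false_ne_true this
  · rintro ⟨c, hc, -, hf⟩
    have hcL : c = L := Multiset.eq_of_mem_replicate hc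
    subst hcL
    rw [Multiset.replicate_succ, Multiset.erase_cons_head] at hf
    have hf' : FitsM A (((c - β) :: List.replicate K c : List ℕ) : Multiset ℕ) := by
      rw [← Multiset.cons_coe, Multiset.coe_replicate]
      exact hf
    have := search_complete m A ((c - β) :: List.replicate K c) ((c - β) + K * c - A.sum) hm hf'
      (by simp only [List.sum_cons, List.sum_replicate, smul_eq_mul]; omega)
    rw [hs2] at this
    exact Bool.false_ne_true this

/-- All Boolean checks for a gap instance built with the hole lemma. -/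
def checkGapHole (L D K β m : ℕ) (hs ps A : List ℕ) (cert : List (List ℕ × ℕ)) : Bool :=
  Nat.blt 0 D && Nat.blt 0 L && (hs ++ (ps ++ A)).all (fun y => Nat.blt 0 y && Nat.ble y L) &&
    checkCert L D (hs ++ (ps ++ A)) cert && checkHole L K β m hs ps A

theorem gap_of_hole (L D K β m : ℕ) (hs ps A : List ℕ) (cert : List (List ℕ × ℕ))
    (h : checkGapHole L D K β m hs ps A cert = true) :
    (∀ x ∈ inst L (hs ++ (ps ++ A)), 0 < x ∧ x ≤ 1) ∧
      ((K + 1 + hs.length : ℕ) : ℝ) + 1 - ((cert.map fun pw => pw.2).sum : ℕ) / (D : ℝ)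
        ≤ (OPT (inst L (hs ++ (ps ++ A))) : ℝ) - LP (inst L (hs ++ (ps ++ A))) := by
  unfold checkGapHole at h
  simp only [Bool.and_eq_true, Nat.blt_eq, List.all_eq_true, Nat.ble_eq] at h
  obtain ⟨⟨⟨⟨hD, hL⟩, hl⟩, hcert⟩, hhole⟩ := h
  have hv := inst_valid L _ hl
  refine ⟨hv, ?_⟩
  have h2 := succ_le_OPT _ (fun x hx => (hv x hx).2) _
    (not_packable_of_checkHole L K β m hs ps A hL hhole)
  have h3 := LP_le_of_cert L D hL hD _ cert hcert
  have h2' : ((K + 1 + hs.length : ℕ) : ℝ) + 1 ≤ (OPT (inst L (hs ++ (ps ++ A))) : ℝ) := by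
    exact_mod_cast h2
  linarith

end Vale.Agent.Lib.P302
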