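import Vale.Agent.Lib.P302.CheckB

/-!
# Greedy filling of the bins that can hold only one item

A bin whose capacity is smaller than twice the smallest item holds at most one item; by an
exchange argument it may be assumed to hold the largest item that fits.  These bins are filled
first, the remaining bins are handled by the bin completion search.
-/

namespace Vale.Agent.Lib.P302

open Multiset

/-- Split off one bin of a packing. -/
theorem IsPart.exists_bin {P : Multiset (ℕ × Multiset ℕ)} {I caps : Multiset ℕ}
    (hP : IsPart P I caps) {c : ℕ} (hc : c ∈ caps) :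
    ∃ (B J : Multiset ℕ) (P' : Multiset (ℕ × Multiset ℕ)), I = B + J ∧ B.sum ≤ c ∧
      IsPart P' J (caps.erase c) := by
  obtain ⟨h1, h2, h3⟩ := hP
  rw [← h1] at hc
  obtain ⟨q, hq, rfl⟩ := Multiset.mem_map.1 hc
  refine ⟨q.2, ((P.erase q).map Prod.snd).sum, P.erase q, ?_, h3 q hq, ?_, rfl, ?_⟩
  · rw [← Multiset.sum_cons, ← Multiset.map_cons Prod.snd, Multiset.cons_erase hq, h2]
  · rw [Multiset.map_erase_of_mem _ _ hq, h1]
  · intro p hp
    exact h3 p (Multiset.mem_of_mem_erase hp)

/-- A bin which is too small for every item can be removed. -/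
theorem IsPart.small_none {P : Multiset (ℕ × Multiset ℕ)} {I caps : Multiset ℕ}
    (hP : IsPart P I caps) {c : ℕ} (hc : c ∈ caps) (hI : ∀ i ∈ I, c < i) :
    ∃ P', IsPart P' I (caps.erase c) := by
  obtain ⟨B, J, P', hBJ, hB, hP'⟩ := hP.exists_bin hc
  have hB0 : B = 0 := by
    rw [Multiset.eq_zero_iff_forall_notMem]
    intro y hy
    have h1 := hI y (by rw [hBJ]; exact Multiset.mem_add.2 (Or.inl hy))
    have h2 := Multiset.single_le_sum (fun _ _ => Nat.zero_le _) y hy
    omega
  subst hB0
  rw [zero_add] at hBJ
  subst hBJ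
  exact ⟨P', hP'⟩

/-- A bin which can hold only one item may be assumed to hold the largest item that fits. -/
theorem IsPart.small_some {P : Multiset (ℕ × Multiset ℕ)} {I caps : Multiset ℕ}
    (hP : IsPart P I caps) {c m v : ℕ} (hc : c ∈ caps) (hm : ∀ i ∈ I, m ≤ i) (hcm : c < 2 * m)
    (hv : v ∈ I) (hmax : ∀ i ∈ I, i ≤ c → i ≤ v) :
    ∃ P', IsPart P' (I.erase v) (caps.erase c) := by
  obtain ⟨B, J, P', hBJ, hB, hP'⟩ := hP.exists_bin hc
  have hBm : card B * m ≤ B.sum := by
    have := Multiset.card_nsmul_le_sum (s := B) (a := m)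
      (fun y hy => hm y (by rw [hBJ]; exact Multiset.mem_add.2 (Or.inl hy)))
    simpa using this
  have hcard : card B = 0 ∨ card B = 1 := by
    by_contra hcon
    have h2 : 2 * m ≤ card B * m := Nat.mul_le_mul_right m (by omega)
    omega
  rcases hcard with h0 | h1
  · rw [Multiset.card_eq_zero] at h0
    subst h0
    rw [zero_add] at hBJ
    subst hBJ
    obtain ⟨P'', hP''⟩ := hP'.replace hv 0 (by simp)
    rw [zero_add] at hP''
    exact ⟨P'', hP''⟩
  · obtain ⟨y, rfl⟩ := Multiset.card_eq_one.1 h1
    rw [Multiset.sum_singleton] at hB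
    rw [Multiset.singleton_add] at hBJ
    by_cases hyv : v = y
    · subst hyv
      rw [hBJ, Multiset.erase_cons_head]
      exact ⟨P', hP'⟩
    · have hvJ : v ∈ J := by
        rw [hBJ, Multiset.mem_cons] at hv
        rcases hv with h | h
        · exact absurd h hyv
        · exact h
      have hyle : y ≤ v := hmax y (by rw [hBJ]; exact Multiset.mem_cons_self _ _) hB
      obtain ⟨P'', hP''⟩ := hP'.replace hvJ {y} (by simpa using hyle)
      refine ⟨P'', ?_⟩
      rw [hBJ, Multiset.erase_cons_tail _ (fun h => hyv h.symm), ← Multiset.singleton_add]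
      exact hP''

/-- Fill the bins of capacity `< 2 * m` greedily, then call the bin completion search. -/
def preFill (f m : ℕ) : List ℕ → List ℕ → List ℕ → ℕ → Bool
  | [], big, items, slack => searchB f items big slack
  | c :: caps, big, items, slack =>
    if Nat.blt c (2 * m) = true then
      match firstFit c items with
      | none => Nat.ble c slack && preFill f m caps big items (slack - c)
      | some v => Nat.ble (c - v) slack && preFill f m caps big (items.erase v) (slack - (c - v))
    else preFill f m caps (c :: big) items slack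

theorem preFill_complete (f m : ℕ) (hm : 0 < m) : ∀ (caps big items : List ℕ) (slack : ℕ),
    items.Pairwise (· ≥ ·) → (∀ i ∈ items, m ≤ i) → (∀ c ∈ caps, c < 4 * m) →
    (∀ c ∈ big, c < 4 * m) →
    (∃ P, IsPart P (items : Multiset ℕ) ((caps ++ big : List ℕ) : Multiset ℕ)) →
    (caps ++ big).sum ≤ items.sum + slack → preFill f m caps big items slack = true
  | [], big, items, slack, hs, hmi, _, hb, hP, hsl => by
    unfold preFill
    exact searchB_complete m hm f items big slack hs hmi hb hP hsl
  | c :: caps, big, items, slack, hs, hmi, hc, hb, ⟨P, hP⟩, hsl => by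
    have hc' : ∀ d ∈ caps, d < 4 * m := fun d hd => hc d (List.mem_cons_of_mem _ hd)
    have hmem : c ∈ ((c :: caps ++ big : List ℕ) : Multiset ℕ) := by simp
    have her : ((c :: caps ++ big : List ℕ) : Multiset ℕ).erase c
        = ((caps ++ big : List ℕ) : Multiset ℕ) := by
      rw [Multiset.coe_erase]
      simp
    simp only [List.cons_append, List.sum_cons] at hsl
    unfold preFill
    by_cases h2 : Nat.blt c (2 * m) = true
    · rw [if_pos h2]
      rw [Nat.blt_eq] at h2
      by_cases hex : ∃ r ∈ items, r ≤ c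
      · obtain ⟨v, e1, e2, e3, e4⟩ := firstFit_some c items hs hex
        rw [e1]
        obtain ⟨P', hP'⟩ := hP.small_some (v := v) hmem (fun i hi => hmi i hi) h2 e2 e4
        rw [her, Multiset.coe_erase] at hP'
        have h3 := hP'.sum_le
        rw [Multiset.sum_coe, Multiset.sum_coe] at h3
        have h4 : items.sum = v + (items.erase v).sum := by
          have := (List.perm_cons_erase e2).sum_eq
          simpa using this
        show (Nat.ble (c - v) slack &&
          preFill f m caps big (items.erase v) (slack - (c - v))) = true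
        rw [Nat.ble_eq_true_of_le (show c - v ≤ slack by omega), Bool.true_and]
        exact preFill_complete f m hm caps big (items.erase v) _ (hs.sublist List.erase_sublist)
          (fun i hi => hmi i (List.mem_of_mem_erase hi)) hc' hb ⟨P', hP'⟩ (by omega)
      · push Not at hex
        rw [firstFit_none c items hex]
        obtain ⟨P', hP'⟩ := hP.small_none hmem (fun i hi => hex i hi)
        rw [her] at hP'
        have h3 := hP'.sum_le
        rw [Multiset.sum_coe, Multiset.sum_coe] at h3
        show (Nat.ble c slack && preFill f m caps big items (slack - c)) = true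
        rw [Nat.ble_eq_true_of_le (show c ≤ slack by omega), Bool.true_and]
        exact preFill_complete f m hm caps big items _ hs hmi hc' hb ⟨P', hP'⟩ (by omega)
    · rw [if_neg h2]
      have hperm : (caps ++ c :: big).Perm (c :: caps ++ big) := List.perm_middle
      refine preFill_complete f m hm caps (c :: big) items slack hs hmi hc' ?_ ⟨P, ?_⟩ ?_
      · intro d hd
        rcases List.mem_cons.1 hd with rfl | hd
        · exact hc d List.mem_cons_self
        · exact hb d hd
      · rw [Multiset.coe_eq_coe.2 hperm]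
        exact hP
      · rw [hperm.sum_eq]
        simpa using hsl

theorem not_fits_of_preFill (m f : ℕ) (hm : 0 < m) (items caps : List ℕ)
    (hs : items.Pairwise (· ≥ ·)) (hmi : ∀ i ∈ items, m ≤ i) (hc : ∀ c ∈ caps, c < 4 * m)
    (h : preFill f m caps [] items (caps.sum - items.sum) = false) :
    ¬ FitsM items (caps : Multiset ℕ) := by
  intro hf
  have := preFill_complete f m hm caps [] items (caps.sum - items.sum) hs hmi hc (by simp)
    (by rw [List.append_nil]; exact FitsM.exists_part _ _ hf) (by rw [List.append_nil]; omega)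
  rw [h] at this
  exact Bool.false_ne_true this

theorem not_fits_cfgC (L g β m f b2 b1 b0 : ℕ) (R : List ℕ) (hm0 : 0 < m)
    (hRs : R.Pairwise (· ≥ ·)) (hm : ∀ y ∈ R, m ≤ y) (hL4 : L < 4 * m)
    (h : ∀ p ∈ cfgStates L g β R.sum b2 b1 b0, preFill f m p.1 [] R p.2 = false) :
    ¬ FitsM (β :: R) (Multiset.replicate b2 (L - 2 * g) + Multiset.replicate b1 (L - g)
        + Multiset.replicate b0 L) := by
  have hc : (Multiset.replicate b2 (L - 2 * g) + Multiset.replicate b1 (L - g)
      + Multiset.replicate b0 L) = ((cfgCaps L g b2 b1 b0 : List ℕ) : Multiset ℕ) := by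
    unfold cfgCaps
    rw [← Multiset.coe_add, ← Multiset.coe_add, Multiset.coe_replicate, Multiset.coe_replicate,
      Multiset.coe_replicate, add_assoc]
  rw [hc]
  rintro ⟨c, hcm, hβ, hf⟩
  have hcm' : c ∈ cfgCaps L g b2 b1 b0 := Multiset.mem_coe.1 hcm
  rw [Multiset.coe_erase, Multiset.cons_coe] at hf
  have hmem : ((c - β) :: (cfgCaps L g b2 b1 b0).erase c,
      ((c - β) :: (cfgCaps L g b2 b1 b0).erase c).sum - R.sum) ∈ cfgStates L g β R.sum b2 b1 b0 := by
    unfold cfgStates
    refine List.mem_map.2 ⟨c, List.mem_filter.2 ⟨List.mem_dedup.2 hcm', ?_⟩, rfl⟩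
    rw [Nat.ble_eq]
    exact hβ
  refine not_fits_of_preFill m f hm0 R _ hRs hm ?_ (h _ hmem) hf
  intro d hd
  rcases List.mem_cons.1 hd with rfl | hd
  · have := cfgCaps_le L g b2 b1 b0 c hcm'
    omega
  · have := cfgCaps_le L g b2 b1 b0 d (List.mem_of_mem_erase hd)
    omega

/-- All Boolean checks for a gap instance consisting of huge items `hs`, pieces `ps`, a thirds
gadget `G` (ascending) and a frame `R` (descending). -/
def checkGadgetC (L D K β m g τ f : ℕ) (hs ps G R : List ℕ) (cert : List (List ℕ × ℕ)) : Bool :=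
  checkGadgetSmall L D β m g hs ps G R cert && decide (R.Pairwise (· ≥ ·)) && Nat.blt L (4 * m) &&
    !(searchB f (G.take (3 * (τ + 1))).reverse (List.replicate (τ + 1) L)
      ((List.replicate (τ + 1) L).sum - (G.take (3 * (τ + 1))).reverse.sum)) &&
    (gadgetStates L (K + 1) g τ G.length β R.sum).all (fun p => !preFill f m p.1 [] R p.2)

theorem gap_of_gadgetC (L D K β m g τ f : ℕ) (hs ps G R : List ℕ) (cert : List (List ℕ × ℕ))
    (h : checkGadgetC L D K β m g τ f hs ps G R cert = true) :
    (∀ x ∈ inst L (hs ++ (ps ++ (G ++ R))), 0 < x ∧ x ≤ 1) ∧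
      ((K + 1 + hs.length : ℕ) : ℝ) + 1 - ((cert.map fun pw => pw.2).sum : ℕ) / (D : ℝ)
        ≤ (OPT (inst L (hs ++ (ps ++ (G ++ R)))) : ℝ) - LP (inst L (hs ++ (ps ++ (G ++ R)))) := by
  unfold checkGadgetC at h
  simp only [Bool.and_eq_true, Nat.blt_eq, List.all_eq_true, Bool.not_eq_true',
    decide_eq_true_eq] at h
  obtain ⟨⟨⟨⟨hsmall, hRs⟩, hL4⟩, H1⟩, H2⟩ := h
  obtain ⟨hm0, hmR, hgG, hGs, h4, hmg⟩ := checkGadgetSmall_facts L D β m g hs ps G R cert hsmall
  refine gap_of_gadget_abs L D K β m g τ hs ps G R cert hsmall ?_ ?_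
  · intro hf1
    have hf2 : FitsM (G.take (3 * (τ + 1))).reverse
        ((List.replicate (τ + 1) L : List ℕ) : Multiset ℕ) := by
      rw [Multiset.coe_replicate]
      exact FitsM.perm hf1 (List.reverse_perm _).symm
    refine not_fits_of_searchB g f (by omega) _ _ ?_ ?_ ?_ H1 hf2
    · rw [List.pairwise_reverse]
      exact hGs.sublist (List.take_sublist _ _)
    · intro y hy
      exact hgG y (List.mem_of_mem_take (List.mem_reverse.1 hy))
    · intro c hc
      rw [List.eq_of_mem_replicate hc]
      exact h4
  · intro j b2 b1 b0 hj e1 e2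
    apply not_fits_cfgC L g β m f b2 b1 b0 R hm0 hRs hmR hL4
    intro p hp
    apply H2 p
    unfold gadgetStates
    exact List.mem_flatMap.2 ⟨(b2, b1, b0), mem_allCfgs _ _ _ j b2 b1 b0 hj e1 e2, hp⟩

end Vale.Agent.Lib.P302
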